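import Vale.Agent.P211.H695.Par

/-! P211, two-point principle: second order expansion of the energy of a variation of the segment. -/

set_option linter.all false
set_option maxSynthPendingDepth 3

open Set Filter Topology MeasureTheory
open scoped ContDiff
open Vale.Agent.P255

noncomputable section

namespace Vale.Agent.P211.H695

variable {V : Type} [NormedAddCommGroup V] [NormedSpace ℝ V] [FiniteDimensional ℝ V]
  {G : V → V →L[ℝ] V →L[ℝ] ℝ} {U : Set V}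
variable {M : Type*} [PseudoMetricSpace M] {ψ : V → M} {v : V} {R : ℝ}

/-- first order term -/
def D1 (G : V → V →L[ℝ] V →L[ℝ] ℝ) (v : V) (ξ : ℝ → V) (t : ℝ) : ℝ :=
  fderiv ℝ (qf G) (t • v, v) (ξ t, deriv ξ t)

/-- second order term -/
def D2 (G : V → V →L[ℝ] V →L[ℝ] ℝ) (v : V) (ξ η : ℝ → V) (t : ℝ) : ℝ :=
  fderiv ℝ (qf G) (t • v, v) (η t, deriv η t) +
    fderiv ℝ (fderiv ℝ (qf G)) (t • v, v) (ξ t, deriv ξ t) (ξ t, deriv ξ t)

theorem cont_deriv {ξ : ℝ → V} (hξ : ContDiff ℝ ∞ ξ) : Continuous (deriv ξ) :=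
  hξ.continuous_deriv (by simp)

theorem Seg.contOn1 (h : Seg G U ψ v R) : ContinuousOn (fun t : ℝ => fderiv ℝ (qf G) (t • v, v))
    (Icc (-R) R) := by
  have hV : IsOpen (U ×ˢ (univ : Set V)) := h.geo.met.isOpen.prod isOpen_univ
  have h1 : ContinuousOn (fderiv ℝ (qf G)) (U ×ˢ univ) :=
    ((contDiffOn_qf h.geo.met).fderiv_of_isOpen hV (m := ∞) (by simp)).continuousOn
  refine h1.comp (by fun_prop) ?_
  intro t ht
  exact ⟨h.mem t (abs_le.2 ht), mem_univ _⟩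

theorem Seg.contOn2 (h : Seg G U ψ v R) :
    ContinuousOn (fun t : ℝ => fderiv ℝ (fderiv ℝ (qf G)) (t • v, v)) (Icc (-R) R) := by
  have hV : IsOpen (U ×ˢ (univ : Set V)) := h.geo.met.isOpen.prod isOpen_univ
  have h1 : ContinuousOn (fderiv ℝ (fderiv ℝ (qf G))) (U ×ˢ univ) :=
    (((contDiffOn_qf h.geo.met).fderiv_of_isOpen hV (m := ∞) (by simp)).fderiv_of_isOpen hV
      (m := ∞) (by simp)).continuousOn
  refine h1.comp (by fun_prop) ?_
  intro t ht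
  exact ⟨h.mem t (abs_le.2 ht), mem_univ _⟩

theorem Seg.contD1 (h : Seg G U ψ v R) {ξ : ℝ → V} (hξ : ContDiff ℝ ∞ ξ) :
    ContinuousOn (D1 G v ξ) (Icc (-R) R) :=
  h.contOn1.clm_apply ((hξ.continuous.prodMk (cont_deriv hξ)).continuousOn)

theorem Seg.contD2 (h : Seg G U ψ v R) {ξ η : ℝ → V} (hξ : ContDiff ℝ ∞ ξ)
    (hη : ContDiff ℝ ∞ η) : ContinuousOn (D2 G v ξ η) (Icc (-R) R) :=
  (h.contOn1.clm_apply ((hη.continuous.prodMk (cont_deriv hη)).continuousOn)).add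
    ((h.contOn2.clm_apply ((hξ.continuous.prodMk (cont_deriv hξ)).continuousOn)).clm_apply
      ((hξ.continuous.prodMk (cont_deriv hξ)).continuousOn))

theorem scal {q d1 dl kk kl lk ll s C ε X : ℝ}
    (b4 : q - 1 - (s * d1 + s ^ 2 / 2 * dl)
      - (s ^ 2 * kk + s ^ 3 / 2 * (kl + lk) + s ^ 4 / 4 * ll) / 2 ≤ X)
    (hX : X ≤ ε / 4 * s ^ 2) (b1 : |kl| ≤ C) (b2 : |lk| ≤ C) (b3 : |ll| ≤ C) (hs1 : |s| < 1)
    (hC : 0 < C) (b8 : |s| * C ≤ ε / 8) : q ≤ 1 + s * d1 + s ^ 2 / 2 * (dl + kk + ε) := by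
  have hs2 : 0 ≤ s ^ 2 := sq_nonneg s
  have hss : s ^ 2 ≤ |s| := by
    rw [← sq_abs]; nlinarith [abs_nonneg s]
  have b6 : s ^ 3 / 4 * (kl + lk) ≤ s ^ 2 * (|s| * C) := by
    have h1 : |s ^ 3 / 4 * (kl + lk)| ≤ |s ^ 3 / 4| * (C + C) := by
      rw [abs_mul]
      have := abs_add_le kl lk
      gcongr
      linarith
    have h2 : |s ^ 3 / 4| = s ^ 2 * |s| / 4 := by
      rw [abs_div, abs_pow]
      have : |s| ^ 3 = s ^ 2 * |s| := by rw [← sq_abs s]; ring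
      rw [this]; norm_num
    have h3 := (abs_le.1 h1).2
    rw [h2] at h3
    have h4 : 0 ≤ s ^ 2 * (|s| * C) := by positivity
    linarith
  have b7 : s ^ 4 / 8 * ll ≤ s ^ 2 * (|s| * C) := by
    have h1 : s ^ 4 / 8 * ll ≤ s ^ 4 / 8 * C := by
      have := (abs_le.1 b3).2
      gcongr
    have h3 : s ^ 2 * s ^ 2 * C ≤ s ^ 2 * |s| * C := by
      gcongr
    have h4 : 0 ≤ s ^ 2 * s ^ 2 * C := by positivity
    have h5 : s ^ 4 / 8 * C = (s ^ 2 * s ^ 2 * C) / 8 := by ring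
    linarith
  have b9 : s ^ 2 * (|s| * C) ≤ s ^ 2 * (ε / 8) := by
    gcongr
  linarith

/-- pointwise expansion, uniform along the segment -/
theorem Seg.pointwise (h : Seg G U ψ v R) {ξ η : ℝ → V} (hξ : ContDiff ℝ ∞ ξ)
    (hη : ContDiff ℝ ∞ η) {ε : ℝ} (hε : 0 < ε) :
    ∀ᶠ s in 𝓝 (0 : ℝ), ∀ t ∈ Icc (-R) R,
      t • v + s • ξ t + (s ^ 2 / 2) • η t ∈ U ∧
      qf G (t • v + s • ξ t + (s ^ 2 / 2) • η t, v + s • deriv ξ t + (s ^ 2 / 2) • deriv η t) ≤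
        1 + s * D1 G v ξ t + s ^ 2 / 2 * (D2 G v ξ η t + ε) := by
  have hV : IsOpen (U ×ˢ (univ : Set V)) := h.geo.met.isOpen.prod isOpen_univ
  set K : Set (V × V) := (fun t : ℝ => (t • v, v)) '' Icc (-R) R with hK
  have hKc : IsCompact K := isCompact_Icc.image (by fun_prop)
  have hKU : K ⊆ U ×ˢ (univ : Set V) := by
    rintro _ ⟨t, ht, rfl⟩
    exact ⟨h.mem t (abs_le.2 ht), mem_univ _⟩
  -- bounds
  have hkc : Continuous fun t : ℝ => ((ξ t, deriv ξ t) : V × V) :=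
    hξ.continuous.prodMk (cont_deriv hξ)
  have hlc : Continuous fun t : ℝ => ((η t, deriv η t) : V × V) :=
    hη.continuous.prodMk (cont_deriv hη)
  obtain ⟨B1, hB1⟩ := (isCompact_Icc (a := -R) (b := R)).exists_bound_of_continuousOn
    hkc.continuousOn
  obtain ⟨B2, hB2⟩ := (isCompact_Icc (a := -R) (b := R)).exists_bound_of_continuousOn
    hlc.continuousOn
  obtain ⟨C0, hC0⟩ := (isCompact_Icc (a := -R) (b := R)).exists_bound_of_continuousOn
    h.contOn2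
  set B : ℝ := max 1 (max B1 B2) with hB
  have hBpos : 0 < B := lt_of_lt_of_le one_pos (le_max_left _ _)
  have hk : ∀ t ∈ Icc (-R) R, ‖((ξ t, deriv ξ t) : V × V)‖ ≤ B := fun t ht =>
    (hB1 t ht).trans ((le_max_left _ _).trans (le_max_right _ _))
  have hl : ∀ t ∈ Icc (-R) R, ‖((η t, deriv η t) : V × V)‖ ≤ B := fun t ht =>
    (hB2 t ht).trans ((le_max_right _ _).trans (le_max_right _ _))
  set C : ℝ := max 0 C0 * B * B + 1 with hC
  have hCpos : 0 < C := by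
    have : 0 ≤ max 0 C0 := le_max_left _ _
    positivity
  have hbil : ∀ t ∈ Icc (-R) R, ∀ a b : V × V, ‖a‖ ≤ B → ‖b‖ ≤ B →
      |fderiv ℝ (fderiv ℝ (qf G)) (t • v, v) a b| ≤ C := by
    intro t ht a b ha hb
    have h1 := (fderiv ℝ (fderiv ℝ (qf G)) (t • v, v)).le_opNorm₂ a b
    rw [Real.norm_eq_abs] at h1
    have h2 : ‖fderiv ℝ (fderiv ℝ (qf G)) (t • v, v)‖ ≤ max 0 C0 :=
      (hC0 t ht).trans (le_max_right _ _)
    have h3 : ‖fderiv ℝ (fderiv ℝ (qf G)) (t • v, v)‖ * ‖a‖ * ‖b‖ ≤ max 0 C0 * B * B := by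
      have : 0 ≤ max 0 C0 := le_max_left _ _
      gcongr
    linarith
  obtain ⟨δ, hδ, hT⟩ := uniform_taylor hV hKc hKU
    ((contDiffOn_qf h.geo.met).of_le (by norm_cast)) (η := ε / (16 * B ^ 2)) (by positivity)
  have hs0 : ∀ᶠ s in 𝓝 (0 : ℝ), |s| < min 1 (min (δ / (2 * B)) (ε / (8 * C))) := by
    have : (0 : ℝ) < min 1 (min (δ / (2 * B)) (ε / (8 * C))) := by positivity
    have h2 := Metric.ball_mem_nhds (0 : ℝ) this
    filter_upwards [h2] with s hs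
    simpa [Real.dist_eq] using hs
  filter_upwards [hs0] with s hs t ht
  have hs1 : |s| < 1 := hs.trans_le (min_le_left _ _)
  have hs2 : |s| < δ / (2 * B) := hs.trans_le ((min_le_right _ _).trans (min_le_left _ _))
  have hs3 : |s| < ε / (8 * C) := hs.trans_le ((min_le_right _ _).trans (min_le_right _ _))
  set p : V × V := (t • v, v) with hp
  set k : V × V := (ξ t, deriv ξ t) with hkdef
  set l : V × V := (η t, deriv η t) with hldef
  have hpK : p ∈ K := ⟨t, ht, rfl⟩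
  have hss : s ^ 2 ≤ |s| := by
    rw [← sq_abs]; nlinarith [abs_nonneg s]
  have hn : ‖s • k + (s ^ 2 / 2) • l‖ ≤ 2 * B * |s| := by
    calc ‖s • k + (s ^ 2 / 2) • l‖ ≤ ‖s • k‖ + ‖(s ^ 2 / 2) • l‖ := norm_add_le _ _
      _ = |s| * ‖k‖ + (s ^ 2 / 2) * ‖l‖ := by
          rw [norm_smul, norm_smul, Real.norm_eq_abs, Real.norm_eq_abs,
            abs_of_nonneg (by positivity : (0 : ℝ) ≤ s ^ 2 / 2)]
      _ ≤ |s| * B + (s ^ 2 / 2) * B := by
          have := hk t ht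
          have := hl t ht
          gcongr
      _ ≤ 2 * B * |s| := by nlinarith
  have hn2 : ‖s • k + (s ^ 2 / 2) • l‖ ≤ δ := by
    refine hn.trans ?_
    rw [lt_div_iff₀ (by positivity)] at hs2
    linarith
  obtain ⟨hmem, hbd⟩ := hT p hpK _ hn2
  have hsum : p + (s • k + (s ^ 2 / 2) • l) =
      (t • v + s • ξ t + (s ^ 2 / 2) • η t, v + s • deriv ξ t + (s ^ 2 / 2) • deriv η t) := by
    rw [hp, hkdef, hldef]
    ext <;> simp [add_assoc]
  rw [hsum] at hmem hbd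
  refine ⟨hmem.1, ?_⟩
  have hq0 : qf G p = 1 := h.unit t (h.mem t (abs_le.2 ht))
  have e1 : fderiv ℝ (qf G) p (s • k + (s ^ 2 / 2) • l) =
      s * fderiv ℝ (qf G) p k + s ^ 2 / 2 * fderiv ℝ (qf G) p l := by
    rw [map_add, map_smul, map_smul, smul_eq_mul, smul_eq_mul]
  have e2 : fderiv ℝ (fderiv ℝ (qf G)) p (s • k + (s ^ 2 / 2) • l) (s • k + (s ^ 2 / 2) • l) =
      s ^ 2 * fderiv ℝ (fderiv ℝ (qf G)) p k k +
      s ^ 3 / 2 * (fderiv ℝ (fderiv ℝ (qf G)) p k l + fderiv ℝ (fderiv ℝ (qf G)) p l k) +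
      s ^ 4 / 4 * fderiv ℝ (fderiv ℝ (qf G)) p l l := by
    simp only [map_add, map_smul, add_apply, smul_apply, smul_eq_mul]
    ring
  rw [hq0, e1, e2] at hbd
  have b1 := hbil t ht k l (hk t ht) (hl t ht)
  have b2 := hbil t ht l k (hl t ht) (hk t ht)
  have b3 := hbil t ht l l (hl t ht) (hl t ht)
  have b4 := (abs_le.1 hbd).2
  have hD1 : D1 G v ξ t = fderiv ℝ (qf G) p k := rfl
  have hD2 : D2 G v ξ η t = fderiv ℝ (qf G) p l + fderiv ℝ (fderiv ℝ (qf G)) p k k := rfl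
  rw [hD1, hD2]
  have b5 : ε / (16 * B ^ 2) * ‖s • k + (s ^ 2 / 2) • l‖ ^ 2 ≤ ε / 4 * s ^ 2 := by
    have : ‖s • k + (s ^ 2 / 2) • l‖ ^ 2 ≤ (2 * B * |s|) ^ 2 :=
      pow_le_pow_left₀ (norm_nonneg _) hn 2
    calc ε / (16 * B ^ 2) * ‖s • k + (s ^ 2 / 2) • l‖ ^ 2 ≤
        ε / (16 * B ^ 2) * (2 * B * |s|) ^ 2 := by gcongr
      _ = ε / 4 * s ^ 2 := by rw [mul_pow, sq_abs]; field_simp; ring
  have b8 : |s| * C ≤ ε / 8 := by
    rw [lt_div_iff₀ (by positivity)] at hs3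
    linarith
  exact scal b4 b5 b1 b2 b3 hs1 hCpos b8

end Vale.Agent.P211.H695

end
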