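import Vale.Agent.P211.H695.Exp

/-! P211, two-point principle: the geodesic equation. -/

set_option linter.all false
set_option maxSynthPendingDepth 3

open Set Filter Topology MeasureTheory
open scoped ContDiff
open Vale.Agent.P255

noncomputable section

namespace Vale.Agent.P211.H695

variable {V : Type} [NormedAddCommGroup V] [NormedSpace ℝ V] [FiniteDimensional ℝ V]
  {G : V → V →L[ℝ] V →L[ℝ] ℝ} {U : Set V}
variable {M : Type*} [PseudoMetricSpace M] {ψ : V → M} {v : V} {R : ℝ}

/-- expansion of the energy bound -/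
theorem Seg.expand (h : Seg G U ψ v R) {ξ η : ℝ → V} (hξ : ContDiff ℝ ∞ ξ)
    (hη : ContDiff ℝ ∞ η) {ε : ℝ} (hε : 0 < ε) :
    ∀ᶠ s in 𝓝 (0 : ℝ), dist (ψ ((-R) • v + s • ξ (-R) + (s ^ 2 / 2) • η (-R)))
        (ψ (R • v + s • ξ R + (s ^ 2 / 2) • η R)) ^ 2 ≤
      2 * R * (2 * R + s * (∫ t in (-R)..R, D1 G v ξ t) +
        s ^ 2 / 2 * ((∫ t in (-R)..R, D2 G v ξ η t) + ε)) := by
  have hR := h.pos
  filter_upwards [h.pointwise hξ hη (ε := ε / (2 * R)) (by positivity)] with s hs
  have hle : -R ≤ R := by linarith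
  have hcd : ContDiff ℝ ∞ fun t : ℝ => t • v + s • ξ t + (s ^ 2 / 2) • η t :=
    ((contDiff_id.smul contDiff_const).add (hξ.const_smul s)).add (hη.const_smul (s ^ 2 / 2))
  have hder : ∀ t, deriv (fun t : ℝ => t • v + s • ξ t + (s ^ 2 / 2) • η t) t =
      v + s • deriv ξ t + (s ^ 2 / 2) • deriv η t := by
    intro t
    have h1 : HasDerivAt (fun t : ℝ => t • v) v t := by
      simpa using (hasDerivAt_id t).smul_const v
    have h2 : HasDerivAt ξ (deriv ξ t) t := (hξ.differentiable (by simp) t).hasDerivAt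
    have h3 : HasDerivAt η (deriv η t) t := (hη.differentiable (by simp) t).hasDerivAt
    exact ((h1.add (h2.const_smul s)).add (h3.const_smul (s ^ 2 / 2))).deriv
  have hen := h.geo.energy _ (-R) R hle (hcd.of_le (by simp)) (fun t ht => (hs t ht).1)
  refine hen.trans ?_
  have e1 : R - -R = 2 * R := by ring
  rw [e1]
  refine mul_le_mul_of_nonneg_left ?_ (by positivity)
  have hc1 : IntervalIntegrable (D1 G v ξ) volume (-R) R :=
    (h.contD1 hξ).intervalIntegrable_of_Icc hle
  have hc2 : IntervalIntegrable (D2 G v ξ η) volume (-R) R :=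
    (h.contD2 hξ hη).intervalIntegrable_of_Icc hle
  have hc3 : IntervalIntegrable (fun t => qf G (t • v + s • ξ t + (s ^ 2 / 2) • η t,
      deriv (fun t : ℝ => t • v + s • ξ t + (s ^ 2 / 2) • η t) t)) volume (-R) R := by
    refine ContinuousOn.intervalIntegrable_of_Icc hle ?_
    have : ContinuousOn (fun t : ℝ => ((t • v + s • ξ t + (s ^ 2 / 2) • η t,
        deriv (fun t : ℝ => t • v + s • ξ t + (s ^ 2 / 2) • η t) t) : V × V)) (Icc (-R) R) :=
      (hcd.continuous.prodMk (cont_deriv hcd)).continuousOn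
    exact (contDiffOn_qf h.geo.met).continuousOn.comp this fun t ht => ⟨(hs t ht).1, mem_univ _⟩
  have hi := intervalIntegral.integral_mono_on (a := -R) (b := R)
    (f := fun t => qf G (t • v + s • ξ t + (s ^ 2 / 2) • η t,
      deriv (fun t : ℝ => t • v + s • ξ t + (s ^ 2 / 2) • η t) t))
    (g := fun t => 1 + s * D1 G v ξ t + s ^ 2 / 2 * (D2 G v ξ η t + ε / (2 * R))) hle hc3
    (((intervalIntegrable_const).add (hc1.const_mul s)).add
      ((hc2.add intervalIntegrable_const).const_mul (s ^ 2 / 2)))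
    (fun t ht => by
      simp only [hder]
      exact (hs t ht).2)
  refine hi.trans (le_of_eq ?_)
  rw [intervalIntegral.integral_add ((intervalIntegrable_const).add (hc1.const_mul s))
    ((hc2.add intervalIntegrable_const).const_mul (s ^ 2 / 2)),
    intervalIntegral.integral_add intervalIntegrable_const (hc1.const_mul s),
    intervalIntegral.integral_const_mul, intervalIntegral.integral_const_mul,
    intervalIntegral.integral_add hc2 intervalIntegrable_const,
    intervalIntegral.integral_const, intervalIntegral.integral_const]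
  simp only [smul_eq_mul]
  field_simp
  ring

/-- if `0 ≤ a s + b s²` near `0`, then `a = 0` -/
theorem lin_zero {a b : ℝ} (h : ∀ᶠ s in 𝓝 (0 : ℝ), 0 ≤ s * a + s ^ 2 * b) : a = 0 := by
  have h1 : IsLocalMin (fun s : ℝ => s * a + s ^ 2 * b) 0 := by
    filter_upwards [h] with s hs
    simpa using hs
  have h2 : HasDerivAt (fun s : ℝ => s * a + s ^ 2 * b) (1 * a + (2 * (0 : ℝ) ^ (2 - 1) * 1) * b) 0 :=
    ((hasDerivAt_id (0 : ℝ)).mul_const a).add (((hasDerivAt_id (0 : ℝ)).pow 2).mul_const b)
  have h3 := h1.hasDerivAt_eq_zero h2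
  simpa using h3

/-- first variation: the segment is a geodesic -/
theorem Seg.chris_zero (h : Seg G U ψ v R) (t : ℝ) (ht : |t| ≤ R) : chrisB G (t • v) v v = 0 := by
  obtain ⟨Γ, hΓ, hΓe⟩ := h.exists_ext
  have hR := h.pos
  have hle : -R ≤ R := by linarith
  set Y : ℝ → V := fun t => Γ t v v with hY
  have hYs : ContDiff ℝ ∞ Y := (hΓ.clm_apply contDiff_const).clm_apply contDiff_const
  have hYe : ∀ t, |t| ≤ R → Y t = chrisB G (t • v) v v := by
    intro t ht
    rw [hY]; simp only
    rw [(hΓe t ht).self_of_nhds]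
  set ξ : ℝ → V := fun t => (R ^ 2 - t ^ 2) • Y t with hξ
  have hξs : ContDiff ℝ ∞ ξ := by
    refine ContDiff.smul ?_ hYs
    fun_prop
  have hend : ξ R = 0 ∧ ξ (-R) = 0 := by
    constructor <;> simp [hξ]
  -- the integral of the first order term vanishes
  have hI : (∫ t in (-R)..R, D1 G v ξ t) = 0 := by
    have h1 := h.expand hξs (η := fun _ => (0 : V)) contDiff_const (ε := 1) one_pos
    have h2 : ∀ᶠ s in 𝓝 (0 : ℝ), 0 ≤ s * (∫ t in (-R)..R, D1 G v ξ t) +
        s ^ 2 * (((∫ t in (-R)..R, D2 G v ξ (fun _ => (0 : V)) t) + 1) / 2) := by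
      filter_upwards [h1] with s hs
      rw [hend.1, hend.2] at hs
      simp only [smul_zero, add_zero] at hs
      rw [h.mini] at hs
      have h3 : 0 ≤ 2 * R * (s * (∫ t in (-R)..R, D1 G v ξ t) +
        s ^ 2 * (((∫ t in (-R)..R, D2 G v ξ (fun _ => (0 : V)) t) + 1) / 2)) := by
        nlinarith [hs]
      exact nonneg_of_mul_nonneg_right h3 (by positivity)
    exact lin_zero h2
  -- integration by parts
  have hD : ∀ t, |t| ≤ R → D1 G v ξ t = 2 * deriv (fun s => G (s • v) v (ξ s)) t -
      2 * ((R ^ 2 - t ^ 2) * G (t • v) (Y t) (Y t)) ∧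
      DifferentiableAt ℝ (fun s => G (s • v) v (ξ s)) t := by
    intro t ht
    have hm := h.mem t ht
    have hd : HasDerivAt ξ (deriv ξ t) t := (hξs.differentiable (by simp) t).hasDerivAt
    have h1 := h.hasDerivAt_met ht (hasDerivAt_const t v) hd
    refine ⟨?_, h1.differentiableAt⟩
    rw [h1.deriv]
    unfold D1
    rw [fderiv_qf h.geo.met (p := (t • v, v)) hm]
    simp only
    have e1 : chrisB G (t • v) (ξ t) v = chrisB G (t • v) v (ξ t) := chrisB_symm h.geo.met hm _ _
    rw [h.geo.met.chris_compat hm, ← chrisB_apply, e1,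
      h.geo.met.symm _ hm (chrisB G (t • v) v (ξ t)) v, h.geo.met.symm _ hm (deriv ξ t) v,
      zero_add, ← hYe t ht]
    have e2 : G (t • v) (Y t) (ξ t) = (R ^ 2 - t ^ 2) * G (t • v) (Y t) (Y t) := by
      rw [hξ]; simp
    rw [e2, map_add]
    ring
  have hcont : ContinuousOn (fun t : ℝ => (R ^ 2 - t ^ 2) * G (t • v) (Y t) (Y t))
      (Icc (-R) R) := by
    have h1 : ContinuousOn (fun t : ℝ => G (t • v)) (Icc (-R) R) :=
      h.geo.met.smooth.continuousOn.comp (by fun_prop) fun t ht => h.mem t (abs_le.2 ht)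
    refine ContinuousOn.mul (by fun_prop) ?_
    exact (h1.clm_apply hYs.continuous.continuousOn).clm_apply hYs.continuous.continuousOn
  have hint : (∫ t in (-R)..R, (R ^ 2 - t ^ 2) * G (t • v) (Y t) (Y t)) = 0 := by
    have h1 : (∫ t in (-R)..R, D1 G v ξ t) + 2 * ∫ t in (-R)..R,
        (R ^ 2 - t ^ 2) * G (t • v) (Y t) (Y t) =
        ∫ t in (-R)..R, 2 * deriv (fun s => G (s • v) v (ξ s)) t := by
      rw [← intervalIntegral.integral_const_mul, ← intervalIntegral.integral_add
        ((h.contD1 hξs).intervalIntegrable_of_Icc hle)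
        ((hcont.intervalIntegrable_of_Icc hle).const_mul 2)]
      refine intervalIntegral.integral_congr fun t ht => ?_
      rw [uIcc_of_le hle] at ht
      rw [(hD t (abs_le.2 ht)).1]
      ring
    have h2 : (∫ t in (-R)..R, 2 * deriv (fun s => G (s • v) v (ξ s)) t) = 0 := by
      rw [intervalIntegral.integral_const_mul, intervalIntegral.integral_deriv_eq_sub]
      · simp [hend.1, hend.2]
      · intro t ht
        rw [uIcc_of_le hle] at ht
        exact (hD t (abs_le.2 ht)).2
      · have h3 : ContinuousOn (fun t => deriv (fun s => G (s • v) v (ξ s)) t) (Icc (-R) R) := by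
          have h4 : ContinuousOn (fun t => (D1 G v ξ t +
              2 * ((R ^ 2 - t ^ 2) * G (t • v) (Y t) (Y t))) / 2) (Icc (-R) R) :=
            ((h.contD1 hξs).add (continuousOn_const.mul hcont)).div_const 2
          refine h4.congr fun t ht => ?_
          simp only
          rw [(hD t (abs_le.2 ht)).1]
          ring
        exact h3.intervalIntegrable_of_Icc hle
    rw [h2, hI] at h1
    linarith
  have hnn : ∀ t ∈ Icc (-R) R, 0 ≤ (R ^ 2 - t ^ 2) * G (t • v) (Y t) (Y t) := by
    intro t ht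
    have h1 : |t| ≤ R := abs_le.2 ht
    have h2 : t ^ 2 ≤ R ^ 2 := by rw [← sq_abs t]; gcongr
    exact mul_nonneg (by linarith) (h.geo.met.nonneg (h.mem t h1) _)
  -- the integrand vanishes
  have hzero : ∀ t ∈ Ioo (-R) R, Y t = 0 := by
    by_contra hcon
    push Not at hcon
    obtain ⟨t0, ht0, hne⟩ := hcon
    have h1 : |t0| < R := abs_lt.2 ht0
    have hpos0 : 0 < (R ^ 2 - t0 ^ 2) * G (t0 • v) (Y t0) (Y t0) := by
      have h2 : t0 ^ 2 < R ^ 2 := by rw [← sq_abs t0]; gcongr
      exact mul_pos (by linarith) (h.geo.met.pos _ (h.mem t0 h1.le) _ hne)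
    have h3 := intervalIntegral.integral_pos (a := -R) (b := R) (by linarith) hcont
      (fun t ht => hnn t (Ioc_subset_Icc_self ht)) ⟨t0, Ioo_subset_Icc_self ht0, hpos0⟩
    linarith
  rw [← hYe t ht]
  have hcl : IsClosed {t : ℝ | Y t = 0} := isClosed_eq hYs.continuous continuous_const
  have hsub : Icc (-R) R ⊆ {t : ℝ | Y t = 0} := by
    rw [← closure_Ioo (by linarith : -R ≠ R)]
    exact closure_minimal hzero hcl
  exact hsub (abs_le.1 ht)

end Vale.Agent.P211.H695

end
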