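import Vale.Agent.P211.H695.Taylor

/-! P211, two-point principle: second order jets of curves. -/

set_option linter.all false
set_option maxSynthPendingDepth 3

open Set Filter Topology Asymptotics
open scoped ContDiff

noncomputable section

namespace Vale.Agent.P211.H695

variable {F F' F'' : Type*} [NormedAddCommGroup F] [NormedSpace ℝ F]
  [NormedAddCommGroup F'] [NormedSpace ℝ F'] [NormedAddCommGroup F''] [NormedSpace ℝ F'']

/-- the curve `x` has the second order expansion `x0 + s x1 + s²/2 x2` at `0`. -/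
def Jet2 (x : ℝ → F) (x0 x1 x2 : F) : Prop :=
  (fun s : ℝ => x s - (x0 + s • x1 + (s ^ 2 / 2) • x2)) =o[𝓝 0] (fun s : ℝ => s ^ 2)

theorem Jet2.poly (x0 x1 x2 : F) : Jet2 (fun s : ℝ => x0 + s • x1 + (s ^ 2 / 2) • x2) x0 x1 x2 := by
  unfold Jet2
  simp only [sub_self]
  exact isLittleO_zero _ _

theorem Jet2.const (x0 : F) : Jet2 (fun _ : ℝ => x0) x0 0 0 := by
  unfold Jet2
  simp only [smul_zero, add_zero, sub_self]
  exact isLittleO_zero _ _

theorem Jet2.prodMk {x : ℝ → F} {y : ℝ → F'} {x0 x1 x2 : F} {y0 y1 y2 : F'}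
    (hx : Jet2 x x0 x1 x2) (hy : Jet2 y y0 y1 y2) :
    Jet2 (fun s => (x s, y s)) (x0, y0) (x1, y1) (x2, y2) := by
  unfold Jet2 at *
  exact hx.prod_left hy

theorem Jet2.sub_isLittleO {x : ℝ → F} {x0 x1 x2 : F} (hx : Jet2 x x0 x1 x2) :
    (fun s : ℝ => x s - x0 - s • x1) =o[𝓝 0] (fun s : ℝ => s) := by
  have h1 : (fun s : ℝ => x s - (x0 + s • x1 + (s ^ 2 / 2) • x2)) =o[𝓝 0] (fun s : ℝ => s) := by
    refine hx.trans_isBigO ?_
    have : (fun s : ℝ => s ^ 2) =o[𝓝 0] (fun s : ℝ => s ^ 1) := isLittleO_pow_pow (by norm_num)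
    simpa using this.isBigO
  have h2 : (fun s : ℝ => (s ^ 2 / 2) • x2) =o[𝓝 0] (fun s : ℝ => s) := by
    have h3 : (fun s : ℝ => s ^ 2) =o[𝓝 0] (fun s : ℝ => s) := by
      have : (fun s : ℝ => s ^ 2) =o[𝓝 0] (fun s : ℝ => s ^ 1) := isLittleO_pow_pow (by norm_num)
      simpa using this
    have h4 : (fun s : ℝ => (s ^ 2 / 2) • x2) =O[𝓝 0] (fun s : ℝ => s ^ 2) := by
      refine IsBigO.of_bound (‖x2‖) (Eventually.of_forall fun s => ?_)
      rw [norm_smul, Real.norm_eq_abs, Real.norm_eq_abs, abs_div, abs_of_nonneg (by norm_num : (0:ℝ) ≤ 2)]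
      have : 0 ≤ |s ^ 2| := abs_nonneg _
      have := norm_nonneg x2
      nlinarith
    exact h4.trans_isLittleO h3
  refine (h1.add h2).congr_left fun s => ?_
  abel

theorem Jet2.isBigO {x : ℝ → F} {x0 x1 x2 : F} (hx : Jet2 x x0 x1 x2) :
    (fun s : ℝ => x s - x0) =O[𝓝 0] (fun s : ℝ => s) := by
  have h1 := hx.sub_isLittleO.isBigO
  have h2 : (fun s : ℝ => s • x1) =O[𝓝 0] (fun s : ℝ => s) := by
    refine IsBigO.of_bound (‖x1‖) (Eventually.of_forall fun s => ?_)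
    rw [norm_smul, mul_comm]
  refine (h1.add h2).congr_left fun s => ?_
  abel

theorem Jet2.tendsto {x : ℝ → F} {x0 x1 x2 : F} (hx : Jet2 x x0 x1 x2) :
    Tendsto x (𝓝 0) (𝓝 x0) := by
  have h1 : Tendsto (fun s : ℝ => x s - x0) (𝓝 0) (𝓝 0) :=
    hx.isBigO.trans_tendsto tendsto_id
  simpa using h1.add_const x0

/-- composition with a twice continuously differentiable map -/
theorem Jet2.comp {L : F → F'} {x : ℝ → F} {x0 x1 x2 : F} (hx : Jet2 x x0 x1 x2)
    (hL : ContDiffAt ℝ 2 L x0) :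
    Jet2 (fun s => L (x s)) (L x0) (fderiv ℝ L x0 x1)
      (fderiv ℝ (fderiv ℝ L) x0 x1 x1 + fderiv ℝ L x0 x2) := by
  obtain ⟨W, hW, hLW⟩ := hL.contDiffOn (m := 2) le_rfl (by simp)
  obtain ⟨W', hW'W, hW'o, hx0⟩ := mem_nhds_iff.1 (by simpa using hW : W ∈ 𝓝 x0)
  have hLW' : ContDiffOn ℝ 2 L W' := hLW.mono hW'W
  have hbil : IsBoundedBilinearMap ℝ (fun p : F × F => fderiv ℝ (fderiv ℝ L) x0 p.1 p.2) :=
    (fderiv ℝ (fderiv ℝ L) x0).isBoundedBilinearMap
  -- Taylor remainder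
  have hT : (fun s : ℝ => L (x s) - L x0 - fderiv ℝ L x0 (x s - x0) -
      (2⁻¹ : ℝ) • fderiv ℝ (fderiv ℝ L) x0 (x s - x0) (x s - x0)) =o[𝓝 0] fun s : ℝ => s ^ 2 := by
    obtain ⟨C, hC0, hC⟩ := hx.isBigO.exists_pos
    rw [isLittleO_iff]
    intro c hc
    obtain ⟨δ, hδ, H⟩ := uniform_taylor_vec hW'o (isCompact_singleton (x := x0))
      (singleton_subset_iff.2 hx0) hLW' (η := c / (C ^ 2)) (by positivity)
    have h2 : ∀ᶠ s in 𝓝 (0 : ℝ), ‖x s - x0‖ ≤ δ := by
      have h3 : Tendsto (fun s => ‖x s - x0‖) (𝓝 0) (𝓝 0) := by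
        have := (hx.tendsto.sub_const x0).norm
        simpa using this
      filter_upwards [h3.eventually (gt_mem_nhds hδ)] with s hs using hs.le
    filter_upwards [hC.bound, h2] with s h3 h4
    have h5 := (H x0 rfl (x s - x0) h4).2
    rw [add_sub_cancel] at h5
    refine h5.trans ?_
    have h6 : ‖x s - x0‖ ^ 2 ≤ (C * ‖s‖) ^ 2 := pow_le_pow_left₀ (norm_nonneg _) h3 2
    calc c / C ^ 2 * ‖x s - x0‖ ^ 2 ≤ c / C ^ 2 * (C * ‖s‖) ^ 2 := by gcongr
      _ = c * ‖s ^ 2‖ := by rw [norm_pow]; field_simp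
  -- linear term
  have h1 : (fun s : ℝ => fderiv ℝ L x0 (x s - (x0 + s • x1 + (s ^ 2 / 2) • x2))) =o[𝓝 0]
      fun s : ℝ => s ^ 2 :=
    ((fderiv ℝ L x0).isBigO_comp _ _).trans_isLittleO hx
  -- quadratic term
  have hlo : (fun s : ℝ => x s - x0 - s • x1) =o[𝓝 0] (fun s : ℝ => s) := hx.sub_isLittleO
  have hq : (fun s : ℝ => fderiv ℝ (fderiv ℝ L) x0 (x s - x0) (x s - x0) -
      s ^ 2 • fderiv ℝ (fderiv ℝ L) x0 x1 x1) =o[𝓝 0] fun s : ℝ => s ^ 2 := by
    obtain ⟨K, hK0, hK⟩ := hbil.bound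
    have e1 : (fun s : ℝ => fderiv ℝ (fderiv ℝ L) x0 (x s - x0 - s • x1) (x s - x0)) =o[𝓝 0]
        fun s : ℝ => s * s := by
      have h2 : (fun s : ℝ => fderiv ℝ (fderiv ℝ L) x0 (x s - x0 - s • x1) (x s - x0)) =O[𝓝 0]
          fun s : ℝ => ‖x s - x0 - s • x1‖ * ‖x s - x0‖ :=
        IsBigO.of_bound K (Eventually.of_forall fun s => by
          rw [Real.norm_of_nonneg (by positivity), ← mul_assoc]
          exact hK _ _)
      exact h2.trans_isLittleO (hlo.norm_left.mul_isBigO hx.isBigO.norm_left)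
    have e2 : (fun s : ℝ => fderiv ℝ (fderiv ℝ L) x0 (s • x1) (x s - x0 - s • x1)) =o[𝓝 0]
        fun s : ℝ => s * s := by
      have h2 : (fun s : ℝ => fderiv ℝ (fderiv ℝ L) x0 (s • x1) (x s - x0 - s • x1)) =O[𝓝 0]
          fun s : ℝ => ‖s • x1‖ * ‖x s - x0 - s • x1‖ :=
        IsBigO.of_bound K (Eventually.of_forall fun s => by
          rw [Real.norm_of_nonneg (by positivity), ← mul_assoc]
          exact hK _ _)
      have h3 : (fun s : ℝ => s • x1) =O[𝓝 0] (fun s : ℝ => s) := by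
        refine IsBigO.of_bound (‖x1‖) (Eventually.of_forall fun s => ?_)
        rw [norm_smul, mul_comm]
      exact h2.trans_isLittleO (h3.norm_left.mul_isLittleO hlo.norm_left)
    have e3 := e1.add e2
    have e4 : (fun s : ℝ => s * s) = fun s : ℝ => s ^ 2 := by funext s; ring
    rw [e4] at e3
    refine e3.congr_left fun s => ?_
    simp only [map_sub, map_smul, sub_apply, smul_apply]
    module
  have h4 := (hT.add h1).add (hq.const_smul_left (2⁻¹ : ℝ))
  unfold Jet2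
  refine h4.congr_left fun s => ?_
  simp only [Pi.smul_apply, map_sub, map_add, map_smul, smul_sub, smul_add]
  module

/-- a curve with a local maximum -/
theorem Jet2.max {x : ℝ → ℝ} {x0 x1 x2 : ℝ} (hx : Jet2 x x0 x1 x2)
    (h : ∀ᶠ s in 𝓝 (0 : ℝ), x s ≤ x0) : x1 = 0 ∧ x2 ≤ 0 := by
  have h1 : x1 = 0 := by
    by_contra hne
    have hlo := hx.sub_isLittleO
    rw [isLittleO_iff] at hlo
    have h2 := hlo (c := |x1| / 2) (by positivity)
    obtain ⟨δ, hδ, hball⟩ := Metric.eventually_nhds_iff.1 (h.and h2)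
    have hx1 : 0 < |x1| := abs_pos.2 hne
    set s : ℝ := (δ / 2) * (x1 / |x1|) with hs
    have hsa : |s| = δ / 2 := by
      rw [hs, abs_mul, abs_of_pos (by positivity : 0 < δ / 2), abs_div, abs_abs,
        div_self hx1.ne', mul_one]
    have h3 := hball (y := s) (by rw [Real.dist_eq, sub_zero, hsa]; linarith)
    have h4 := h3.2
    rw [Real.norm_eq_abs, Real.norm_eq_abs, hsa, smul_eq_mul] at h4
    have h5 : s * x1 = δ / 2 * |x1| := by
      rw [hs]
      have : x1 * x1 = |x1| * |x1| := (abs_mul_abs_self x1).symm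
      field_simp
      nlinarith
    have h6 := (abs_le.1 h4).1
    rw [h5] at h6
    have h7 := h3.1
    nlinarith [mul_pos hδ hx1]
  refine ⟨h1, ?_⟩
  by_contra hcon
  push Not at hcon
  have hx' := hx
  unfold Jet2 at hx'
  rw [isLittleO_iff] at hx'
  have h2 := hx' (c := x2 / 4) (by positivity)
  obtain ⟨δ, hδ, hball⟩ := Metric.eventually_nhds_iff.1 (h.and h2)
  have h3 := hball (y := δ / 2) (by
    rw [Real.dist_eq, sub_zero, abs_of_pos (by positivity)]; linarith)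
  have h4 := (abs_le.1 h3.2).1
  rw [h1] at h4
  simp only [smul_zero, smul_eq_mul, add_zero, norm_pow, Real.norm_eq_abs, sq_abs] at h4
  have h5 := h3.1
  nlinarith [mul_pos (mul_pos hδ hδ) hcon]

end Vale.Agent.P211.H695

end
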