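import Mathlib

/-! P211, two-point principle: uniform second order Taylor expansion. -/

set_option linter.all false

open scoped ContDiff Topology
open Set Metric Filter

set_option maxSynthPendingDepth 3

noncomputable section

namespace Vale.Agent.P211.H695

/-- Uniform second order Taylor expansion on a compact set. -/
theorem uniform_taylor_vec {F F' : Type*} [NormedAddCommGroup F] [NormedSpace ℝ F]
    [NormedAddCommGroup F'] [NormedSpace ℝ F']
    {V P : Set F} (hV : IsOpen V) (hP : IsCompact P) (hPV : P ⊆ V) {q : F → F'}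
    (hq : ContDiffOn ℝ 2 q V) {η : ℝ} (hη : 0 < η) :
    ∃ δ > 0, ∀ p ∈ P, ∀ h : F, ‖h‖ ≤ δ → p + h ∈ V ∧
      ‖q (p + h) - q p - fderiv ℝ q p h - (2⁻¹ : ℝ) • fderiv ℝ (fderiv ℝ q) p h h‖
        ≤ η * ‖h‖ ^ 2 := by
  have hq1 : ContDiffOn ℝ 1 (fderiv ℝ q) V := hq.fderiv_of_isOpen hV (by norm_num)
  have hq2 : ContinuousOn (fderiv ℝ (fderiv ℝ q)) V := by
    have := hq1.fderiv_of_isOpen hV (m := 0) (by norm_num)
    exact this.continuousOn
  obtain ⟨δ₁, hδ₁, hthick⟩ := hP.exists_cthickening_subset_open hV hPV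
  -- uniform continuity of the second derivative near `P`
  obtain ⟨δ₂, hδ₂, huc⟩ : ∃ δ₂ > 0, ∀ p ∈ P, ∀ y, dist y p < δ₂ →
      dist (fderiv ℝ (fderiv ℝ q) y) (fderiv ℝ (fderiv ℝ q) p) < η := by
    have h1 : ∀ p ∈ P, ∃ δ > 0, ∀ y, dist y p < 2 * δ →
        dist (fderiv ℝ (fderiv ℝ q) y) (fderiv ℝ (fderiv ℝ q) p) < η / 2 := by
      intro p hp
      have hc : ContinuousAt (fderiv ℝ (fderiv ℝ q)) p :=
        hq2.continuousAt (hV.mem_nhds (hPV hp))
      obtain ⟨δ, hδ, h⟩ := Metric.continuousAt_iff.1 hc (η / 2) (by positivity)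
      exact ⟨δ / 2, by positivity, fun y hy => h (by linarith only [hy])⟩
    choose! δf hδf hδf2 using h1
    obtain ⟨T, hTP, hT⟩ := hP.elim_nhds_subcover (fun p => ball p (δf p))
      (fun p hp => ball_mem_nhds p (hδf p hp))
    rcases T.eq_empty_or_nonempty with rfl | hne
    · refine ⟨1, one_pos, fun p hp => ?_⟩
      have := hT hp
      simp at this
    refine ⟨T.inf' hne δf, (Finset.lt_inf'_iff hne).2 fun p hp => hδf p (hTP p hp), ?_⟩
    intro p hp y hy
    obtain ⟨p₀, hp₀, hpp₀⟩ := mem_iUnion₂.1 (hT hp)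
    have h2 : T.inf' hne δf ≤ δf p₀ := Finset.inf'_le _ hp₀
    have h3 := hδf2 p₀ (hTP p₀ hp₀) p (by
      have := mem_ball.1 hpp₀; have := hδf p₀ (hTP p₀ hp₀); linarith)
    have h4 := hδf2 p₀ (hTP p₀ hp₀) y (by
      have h5 := mem_ball.1 hpp₀
      calc dist y p₀ ≤ dist y p + dist p p₀ := dist_triangle _ _ _
        _ < 2 * δf p₀ := by linarith only [hne, hy, h2, h5])
    calc _ ≤ dist (fderiv ℝ (fderiv ℝ q) y) (fderiv ℝ (fderiv ℝ q) p₀)
          + dist (fderiv ℝ (fderiv ℝ q) p) (fderiv ℝ (fderiv ℝ q) p₀) := dist_triangle_right _ _ _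
      _ < η := by linarith only [h3, h4]
  refine ⟨min δ₁ (δ₂ / 2), by positivity, fun p hp h hh => ?_⟩
  have hhδ₁ : ‖h‖ ≤ δ₁ := hh.trans (min_le_left _ _)
  have hhδ₂ : ‖h‖ < δ₂ := by
    have := hh.trans (min_le_right _ _); linarith only [hδ₂, this]
  have hmem : ∀ k : F, ‖k‖ ≤ ‖h‖ → p + k ∈ V := by
    intro k hk
    apply hthick
    apply mem_cthickening_of_dist_le (p + k) p δ₁ P hp
    rw [dist_eq_norm]; simpa using hk.trans hhδ₁
  refine ⟨hmem h le_rfl, ?_⟩
  set B : Set F := closedBall 0 ‖h‖ with hB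
  have hconv : Convex ℝ B := convex_closedBall _ _
  have hsym : IsSymmSndFDerivAt ℝ q p :=
    (hq.contDiffAt (hV.mem_nhds (hPV hp))).isSymmSndFDerivAt (by simp)
  -- first derivative estimate
  have hd1 : ∀ k ∈ B, ‖fderiv ℝ q (p + k) - fderiv ℝ q p - fderiv ℝ (fderiv ℝ q) p k‖ ≤ η * ‖k‖ := by
    intro k hk
    have hkn : ‖k‖ ≤ ‖h‖ := by simpa [hB] using hk
    have hconv' : Convex ℝ (closedBall (0:F) ‖k‖) := convex_closedBall _ _
    have hder : ∀ l ∈ closedBall (0:F) ‖k‖, HasFDerivWithinAt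
        (fun l => fderiv ℝ q (p + l) - fderiv ℝ q p - fderiv ℝ (fderiv ℝ q) p l)
        (fderiv ℝ (fderiv ℝ q) (p + l) - fderiv ℝ (fderiv ℝ q) p) (closedBall (0:F) ‖k‖) l := by
      intro l hl
      have hln : ‖l‖ ≤ ‖h‖ := by
        have : ‖l‖ ≤ ‖k‖ := by simpa using hl
        linarith only [hkn, this]
      have h1 : HasFDerivAt (fderiv ℝ q) (fderiv ℝ (fderiv ℝ q) (p + l)) (p + l) :=
        ((hq1.contDiffAt (hV.mem_nhds (hmem l hln))).differentiableAt (by simp)).hasFDerivAt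
      have h2 : HasFDerivAt (fun l => fderiv ℝ q (p + l)) (fderiv ℝ (fderiv ℝ q) (p + l)) l := by
        have := h1.comp l ((hasFDerivAt_id l).const_add p)
        rwa [ContinuousLinearMap.comp_id] at this
      exact ((h2.sub_const _).sub (fderiv ℝ (fderiv ℝ q) p).hasFDerivAt).hasFDerivWithinAt
    have := hconv'.norm_image_sub_le_of_norm_hasFDerivWithin_le hder (C := η) (fun l hl => by
      have hln : ‖l‖ ≤ ‖h‖ := by
        have : ‖l‖ ≤ ‖k‖ := by simpa using hl
        linarith only [hkn, this]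
      have := huc p hp (p + l) (by rw [dist_eq_norm]; simpa using hln.trans_lt hhδ₂)
      rw [dist_eq_norm] at this
      exact this.le) (x := 0) (y := k) (by simp) (by simp)
    simpa using this
  have hder : ∀ k ∈ B, HasFDerivWithinAt
      (fun k => q (p + k) - q p - fderiv ℝ q p k - (2⁻¹ : ℝ) • fderiv ℝ (fderiv ℝ q) p k k)
      (fderiv ℝ q (p + k) - fderiv ℝ q p - fderiv ℝ (fderiv ℝ q) p k) B k := by
    intro k hk
    have hkn : ‖k‖ ≤ ‖h‖ := by simpa [hB] using hk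
    have h1 : HasFDerivAt q (fderiv ℝ q (p + k)) (p + k) :=
      ((hq.contDiffAt (hV.mem_nhds (hmem k hkn))).differentiableAt (by simp)).hasFDerivAt
    have h2 : HasFDerivAt (fun k => q (p + k)) (fderiv ℝ q (p + k)) k := by
      have := h1.comp k ((hasFDerivAt_id k).const_add p)
      rwa [ContinuousLinearMap.comp_id] at this
    have h3 : HasFDerivAt (fun k => (2⁻¹ : ℝ) • fderiv ℝ (fderiv ℝ q) p k k)
        (fderiv ℝ (fderiv ℝ q) p k) k := by
      have := ((fderiv ℝ (fderiv ℝ q) p).hasFDerivAt (x := k)).clm_apply (hasFDerivAt_id k)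
      have h4 := this.const_smul (2⁻¹ : ℝ)
      convert! h4 using 1
      ext l
      simp only [ContinuousLinearMap.comp_id, id, smul_apply, add_apply,
        ContinuousLinearMap.flip_apply]
      rw [hsym.eq l k, ← two_smul ℝ (fderiv ℝ (fderiv ℝ q) p k l), smul_smul]
      norm_num
    exact (((h2.sub_const _).sub (fderiv ℝ q p).hasFDerivAt).sub h3).hasFDerivWithinAt
  have := hconv.norm_image_sub_le_of_norm_hasFDerivWithin_le hder (C := η * ‖h‖) (fun k hk => by
      have hkn : ‖k‖ ≤ ‖h‖ := by simpa [hB] using hk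
      exact (hd1 k hk).trans (by gcongr)) (x := 0) (y := h) (by simp [hB]) (by simp [hB])
  simp only [add_zero, map_zero, smul_zero, sub_zero, sub_self] at this
  calc _ ≤ _ := this
    _ = η * ‖h‖ ^ 2 := by ring

/-- Uniform second order Taylor expansion on a compact set, scalar version. -/
theorem uniform_taylor {F : Type*} [NormedAddCommGroup F] [NormedSpace ℝ F]
    {V P : Set F} (hV : IsOpen V) (hP : IsCompact P) (hPV : P ⊆ V) {q : F → ℝ}
    (hq : ContDiffOn ℝ 2 q V) {η : ℝ} (hη : 0 < η) :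
    ∃ δ > 0, ∀ p ∈ P, ∀ h : F, ‖h‖ ≤ δ → p + h ∈ V ∧
      |q (p + h) - q p - fderiv ℝ q p h - fderiv ℝ (fderiv ℝ q) p h h / 2| ≤ η * ‖h‖ ^ 2 := by
  obtain ⟨δ, hδ, H⟩ := uniform_taylor_vec hV hP hPV hq hη
  refine ⟨δ, hδ, fun p hp h hh => ⟨(H p hp h hh).1, ?_⟩⟩
  have := (H p hp h hh).2
  rwa [smul_eq_mul, Real.norm_eq_abs, inv_mul_eq_div] at this

end Vale.Agent.P211.H695

end
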