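import Vale.Agent.P211.H695.Qf
import Vale.Agent.P211.H695.Taylor
import Vale.Agent.P219.CHH.Ode

/-! P211, two-point principle: the segment in a chart, cutoff of the Christoffel symbols and
parallel fields. -/

set_option linter.all false
set_option maxSynthPendingDepth 3

open Set Filter Topology
open scoped ContDiff
open Vale.Agent.P255

noncomputable section

namespace Vale.Agent.P211.H695

variable {V : Type} [NormedAddCommGroup V] [NormedSpace ℝ V] [FiniteDimensional ℝ V]
  {G : V → V →L[ℝ] V →L[ℝ] ℝ} {U : Set V}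

/-- A chart of a Riemannian manifold `M`: metric coefficients, energy bound, Ricci curvature. -/
structure LocGeo {M : Type*} [PseudoMetricSpace M] (G : V → V →L[ℝ] V →L[ℝ] ℝ) (U : Set V)
    (ψ : V → M) : Prop where
  met : IsMetricOn G U
  energy : ∀ (c : ℝ → V) (a b : ℝ), a ≤ b → ContDiff ℝ 1 c → (∀ t ∈ Icc a b, c t ∈ U) →
    dist (ψ (c a)) (ψ (c b)) ^ 2 ≤ (b - a) * ∫ t in a..b, qf G (c t, deriv c t)
  ric : ∀ u ∈ U, ∀ (w : V) (β : Fin 4 → V),
    (∀ i j, G u (β i) (β j) = if i = j then 1 else 0) →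
      ∑ i, G u (curv G u (β i) w w) (β i) = 3 * G u w w

/-- A minimising segment `t v`, `|t| ≤ R`, of a chart. -/
structure Seg {M : Type*} [PseudoMetricSpace M] (G : V → V →L[ℝ] V →L[ℝ] ℝ) (U : Set V)
    (ψ : V → M) (v : V) (R : ℝ) : Prop where
  geo : LocGeo G U ψ
  pos : 0 < R
  mem : ∀ t : ℝ, |t| ≤ R → t • v ∈ U
  unit : ∀ t : ℝ, t • v ∈ U → G (t • v) v v = 1
  mini : dist (ψ ((-R) • v)) (ψ (R • v)) = 2 * R

variable {M : Type*} [PseudoMetricSpace M] {ψ : V → M} {v : V} {R : ℝ}

/-- a neighbourhood of the segment -/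
theorem Seg.exists_delta (h : Seg G U ψ v R) : ∃ δ > 0, ∀ t : ℝ, |t| < R + δ → t • v ∈ U := by
  have hS : IsOpen {t : ℝ | t • v ∈ U} :=
    h.geo.met.isOpen.preimage (continuous_id.smul continuous_const)
  have hK : IsCompact (Icc (-R) R) := isCompact_Icc
  obtain ⟨δ, hδ, hsub⟩ := hK.exists_cthickening_subset_open hS fun t ht => h.mem t (abs_le.2 ht)
  refine ⟨δ, hδ, fun t ht => hsub ?_⟩
  have hpos := h.pos
  rcases le_or_gt |t| R with h1 | h1
  · exact Metric.self_subset_cthickening _ (abs_le.1 h1)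
  · rcases le_or_gt 0 t with h2 | h2
    · rw [abs_of_nonneg h2] at ht h1
      refine Metric.mem_cthickening_of_dist_le t R δ _ ⟨by linarith, le_rfl⟩ ?_
      rw [Real.dist_eq, abs_le]; constructor <;> linarith
    · rw [abs_of_neg h2] at ht h1
      refine Metric.mem_cthickening_of_dist_le t (-R) δ _ ⟨le_rfl, by linarith⟩ ?_
      rw [Real.dist_eq, abs_le]; constructor <;> linarith

/-- Christoffel symbols along the segment, extended smoothly to all times. -/
theorem Seg.exists_ext (h : Seg G U ψ v R) : ∃ Γ : ℝ → V →L[ℝ] V →L[ℝ] V, ContDiff ℝ ∞ Γ ∧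
    ∀ t, |t| ≤ R → Γ =ᶠ[𝓝 t] fun s => chrisB G (s • v) := by
  obtain ⟨δ, hδ, hmem⟩ := h.exists_delta
  have hpos := h.pos
  let f : ContDiffBump (0 : ℝ) := ⟨R + δ / 3, R + δ / 2, by linarith, by linarith⟩
  refine ⟨fun t => f t • chrisB G (t • v), ?_, ?_⟩
  · rw [contDiff_iff_contDiffAt]
    intro t
    rcases lt_or_ge |t| (R + δ) with h1 | h1
    · have h2 : ContDiffAt ℝ ∞ (fun s : ℝ => chrisB G (s • v)) t :=
        (h.geo.met.contDiffAt_chrisB (hmem t h1)).comp t
          (contDiff_id.smul contDiff_const).contDiffAt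
      exact (f.contDiff (n := ⊤)).contDiffAt.smul h2
    · have h3 : ∀ᶠ s in 𝓝 t, R + δ / 2 < |s| :=
        (isOpen_lt continuous_const continuous_abs).mem_nhds (by
          show R + δ / 2 < |t|; linarith)
      refine (contDiffAt_const (c := (0 : V →L[ℝ] V →L[ℝ] V))).congr_of_eventuallyEq ?_
      filter_upwards [h3] with s hs
      have h4 : f s = 0 := f.zero_of_le_dist (by
        rw [Real.dist_eq, sub_zero]; exact hs.le)
      rw [h4, zero_smul]
  · intro t ht
    have h5 : t ∈ Metric.ball (0 : ℝ) f.rIn := by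
      rw [Metric.mem_ball, Real.dist_eq, sub_zero]
      show |t| < R + δ / 3
      linarith
    filter_upwards [f.eventuallyEq_one_of_mem_ball h5] with s hs
    rw [hs]; simp

/-- Parallel frame along the segment: fields `β i`, `i ≠ 0`, in general not yet orthogonal to
`v`. -/
theorem Seg.exists_par (h : Seg G U ψ v R) {Γ : ℝ → V →L[ℝ] V →L[ℝ] V} (hΓ : ContDiff ℝ ∞ Γ)
    (w : V) : ∃ β : ℝ → V, ContDiff ℝ ∞ β ∧ β 0 = w ∧
      ∀ t, HasDerivAt β (-(Γ t v (β t))) t := by
  have : CompleteSpace V := FiniteDimensional.complete ℝ V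
  have hA : ContDiff ℝ ∞ (fun t => -(Γ t v)) := (hΓ.clm_apply contDiff_const).neg
  obtain ⟨P, hP, hP0, hPd⟩ := Vale.Agent.P219.CH.exists_fundamental hA
  refine ⟨fun t => P t w, hP.clm_apply contDiff_const, by simp [hP0], fun t => ?_⟩
  have h1 := (hPd t).clm_apply (hasDerivAt_const t w)
  refine h1.congr_deriv ?_
  simp

/-- derivative of the metric along the segment -/
theorem Seg.hasDerivAt_met (h : Seg G U ψ v R) {t : ℝ} (ht : |t| ≤ R) {X Y : ℝ → V} {X' Y' : V}
    (hX : HasDerivAt X X' t) (hY : HasDerivAt Y Y' t) :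
    HasDerivAt (fun s => G (s • v) (X s) (Y s))
      (G (t • v) (X' + chrisB G (t • v) v (X t)) (Y t) +
        G (t • v) (X t) (Y' + chrisB G (t • v) v (Y t))) t := by
  have hc : HasDerivAt (fun s : ℝ => s • v) v t := by
    simpa using (hasDerivAt_id t).smul_const v
  have h1 : HasDerivAt (fun s : ℝ => G (s • v)) (fderiv ℝ G (t • v) v) t :=
    (h.geo.met.differentiableAt (h.mem t ht)).hasFDerivAt.comp_hasDerivAt t hc
  have h2 := (h1.clm_apply hX).clm_apply hY
  refine h2.congr_deriv ?_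
  simp only [add_apply, map_add]
  rw [h.geo.met.chris_compat (h.mem t ht), chrisB_apply, chrisB_apply]
  ring

end Vale.Agent.P211.H695

end
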