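import Vale.Agent.P255.CoordM

/-! P211, two-point principle: the energy density in a chart and its second derivative. -/

set_option linter.all false
set_option maxSynthPendingDepth 3

open Set Filter Topology
open scoped ContDiff
open Vale.Agent.P255

noncomputable section

namespace Vale.Agent.P211.H695

variable {V : Type} [NormedAddCommGroup V] [NormedSpace ℝ V] [FiniteDimensional ℝ V]
  {G : V → V →L[ℝ] V →L[ℝ] ℝ} {U : Set V} {z : V}

/-- the energy density as a function on the tangent bundle -/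
def qf (G : V → V →L[ℝ] V →L[ℝ] ℝ) (p : V × V) : ℝ := G p.1 p.2 p.2

theorem contDiffOn_qf (h : IsMetricOn G U) : ContDiffOn ℝ ∞ (qf G) (U ×ˢ univ) := by
  have c0 : ContDiffOn ℝ ∞ (fun p : V × V => G p.1) (U ×ˢ univ) :=
    h.smooth.comp contDiff_fst.contDiffOn (fun p hp => hp.1)
  exact (c0.clm_apply contDiff_snd.contDiffOn).clm_apply contDiff_snd.contDiffOn

theorem diff_fderiv (h : IsMetricOn G U) (hz : z ∈ U) : DifferentiableAt ℝ (fderiv ℝ G) z :=
  (h.contDiffAt_fderiv hz).differentiableAt (by simp)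

theorem fderiv_qf (h : IsMetricOn G U) {p : V × V} (hp : p.1 ∈ U) (k : V × V) :
    fderiv ℝ (qf G) p k = fderiv ℝ G p.1 k.1 p.2 p.2 + 2 * G p.1 k.2 p.2 := by
  have h1 : HasFDerivAt (fun p : V × V => G p.1)
      ((fderiv ℝ G p.1).comp (ContinuousLinearMap.fst ℝ V V)) p :=
    (h.differentiableAt hp).hasFDerivAt.comp p hasFDerivAt_fst
  have h2 : HasFDerivAt (fun p : V × V => p.2) (ContinuousLinearMap.snd ℝ V V) p := hasFDerivAt_snd
  have h3 := (h1.clm_apply h2).clm_apply h2
  have h4 : HasFDerivAt (qf G) _ p := h3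
  rw [h4.fderiv]
  simp only [ContinuousLinearMap.comp_apply, add_apply, ContinuousLinearMap.flip_apply,
    ContinuousLinearMap.coe_fst', ContinuousLinearMap.coe_snd']
  rw [h.symm p.1 hp p.2 k.2]
  ring

theorem fderiv2_qf (h : IsMetricOn G U) {p : V × V} (hp : p.1 ∈ U) (k : V × V) :
    fderiv ℝ (fderiv ℝ (qf G)) p k k = fderiv ℝ (fderiv ℝ G) p.1 k.1 k.1 p.2 p.2
      + 4 * fderiv ℝ G p.1 k.1 k.2 p.2 + 2 * G p.1 k.2 k.2 := by
  have hV : IsOpen (U ×ˢ (univ : Set V)) := h.isOpen.prod isOpen_univ
  have hpV : p ∈ U ×ˢ (univ : Set V) := ⟨hp, mem_univ _⟩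
  have hd : DifferentiableAt ℝ (fderiv ℝ (qf G)) p :=
    (((contDiffOn_qf h).fderiv_of_isOpen hV (m := ∞) (by simp)).contDiffAt
      (hV.mem_nhds hpV)).differentiableAt (by simp)
  have h0 : HasFDerivAt (fun y => fderiv ℝ (qf G) y k) ((fderiv ℝ (fderiv ℝ (qf G)) p).flip k) p := by
    have := hd.hasFDerivAt.clm_apply (hasFDerivAt_const k p)
    convert! this using 1
    ext u <;> simp
  have h1 : HasFDerivAt (fun p : V × V => G p.1)
      ((fderiv ℝ G p.1).comp (ContinuousLinearMap.fst ℝ V V)) p :=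
    (h.differentiableAt hp).hasFDerivAt.comp p hasFDerivAt_fst
  have h1' : HasFDerivAt (fun p : V × V => fderiv ℝ G p.1)
      ((fderiv ℝ (fderiv ℝ G) p.1).comp (ContinuousLinearMap.fst ℝ V V)) p :=
    (diff_fderiv h hp).hasFDerivAt.comp p hasFDerivAt_fst
  have h2 : HasFDerivAt (fun p : V × V => p.2) (ContinuousLinearMap.snd ℝ V V) p := hasFDerivAt_snd
  have h3 := (((h1'.clm_apply (hasFDerivAt_const k.1 p)).clm_apply h2).clm_apply h2).add
    (((h1.clm_apply (hasFDerivAt_const k.2 p)).clm_apply h2).const_mul 2)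
  have h4 : (fun y : V × V => fderiv ℝ (qf G) y k) =ᶠ[𝓝 p]
      (fun p : V × V => fderiv ℝ G p.1 k.1 p.2 p.2 + 2 * G p.1 k.2 p.2) := by
    filter_upwards [hV.mem_nhds hpV] with y hy using fderiv_qf h hy.1 k
  have h5 := (h0.congr_of_eventuallyEq h4.symm).unique h3
  have h6 := congrArg (fun T => T k) h5
  simp only [ContinuousLinearMap.comp_apply, add_apply, ContinuousLinearMap.flip_apply,
    ContinuousLinearMap.coe_fst', ContinuousLinearMap.coe_snd', smul_apply,
    smul_eq_mul, ContinuousLinearMap.zero_apply, map_zero, zero_add] at h6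
  rw [h6, h.fderiv_symm hp k.1 p.2 k.2]
  ring

/-- second derivative of the metric in terms of the Christoffel symbols -/
theorem fderiv2_metric (h : IsMetricOn G U) (hz : z ∈ U) (b x : V) :
    fderiv ℝ (fderiv ℝ G) z b b x x =
      2 * (G z (chrisB G z b (chrisB G z b x)) x + G z (chrisB G z b x) (chrisB G z b x)
        + G z (fderiv ℝ (chrisB G) z b b x) x) := by
  have h1 : ∀ p ∈ U, fderiv ℝ G p b x x = 2 * G p (chrisB G p b x) x := by
    intro p hp
    rw [h.chris_compat hp, h.symm p hp x, ← chrisB_apply]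
    ring
  have e0 : HasFDerivAt (fun p => fderiv ℝ G p b x x)
      ((((fderiv ℝ (fderiv ℝ G) z).flip b).flip x).flip x) z := by
    have := (((diff_fderiv h hz).hasFDerivAt.clm_apply (hasFDerivAt_const b z)).clm_apply
      (hasFDerivAt_const x z)).clm_apply (hasFDerivAt_const x z)
    refine this.congr_fderiv ?_
    ext y; simp
  have e1 : (fun p => fderiv ℝ G p b x x) =ᶠ[𝓝 z] fun p => 2 * G p (chrisB G p b x) x := by
    filter_upwards [h.isOpen.mem_nhds hz] with p hp
    exact h1 p hp
  have e2 := (((h.differentiableAt_chrisB hz).hasFDerivAt.clm_apply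
    (hasFDerivAt_const b z)).clm_apply (hasFDerivAt_const x z))
  have e3 := (((h.differentiableAt hz).hasFDerivAt.clm_apply e2).clm_apply
    (hasFDerivAt_const x z)).const_mul 2
  have e4 := (e0.congr_of_eventuallyEq e1.symm).unique e3
  have e5 := congrArg (fun T => T b) e4
  simp only [add_apply, ContinuousLinearMap.flip_apply,
    ContinuousLinearMap.comp_apply, zero_apply, map_zero,
    zero_add, smul_apply, smul_eq_mul] at e5
  rw [e5, h.chris_compat hz]
  simp only [chrisB_apply]
  ring

theorem chrisB_symm (h : IsMetricOn G U) (hz : z ∈ U) (v w : V) :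
    chrisB G z v w = chrisB G z w v := by
  rw [chrisB_apply, chrisB_apply, h.chris_symm hz]

theorem fderiv_chrisB_symm (h : IsMetricOn G U) (hz : z ∈ U) (a v w : V) :
    fderiv ℝ (chrisB G) z a v w = fderiv ℝ (chrisB G) z a w v := by
  rw [← h.fderiv_chris hz, ← h.fderiv_chris hz]
  have e1 : (fun p => chris G p v w) =ᶠ[𝓝 z] fun p => chris G p w v := by
    filter_upwards [h.isOpen.mem_nhds hz] with p hp
    exact h.chris_symm hp v w
  rw [e1.fderiv_eq]

theorem curv_skew2 (h : IsMetricOn G U) (hz : z ∈ U) (x y a b : V) :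
    G z (curv G z x y a) b = - G z (curv G z x y b) a := by
  have h1 := h.curv_skew hz x y (a + b)
  have h2 := h.curv_skew hz x y a
  have h3 := h.curv_skew hz x y b
  have e : curv G z x y (a + b) = curv G z x y a + curv G z x y b := by
    rw [h.curv_eq hz, h.curv_eq hz, h.curv_eq hz]
    simp only [map_add]
    abel
  rw [e] at h1
  simp only [map_add, add_apply] at h1
  linarith

/-- The second variation density. `v` is the velocity, `X` the variation field, `X'` its
derivative; the variation has acceleration `-Γ(X,X)`. -/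
theorem second_density (h : IsMetricOn G U) (hz : z ∈ U) (v X X' : V) :
    fderiv ℝ (qf G) (z, v) (-(chrisB G z X X), -(fderiv ℝ (chrisB G) z v X X)
        - (2 : ℝ) • chrisB G z X' X) +
      fderiv ℝ (fderiv ℝ (qf G)) (z, v) (X, X') (X, X') =
    2 * (G z (X' + chrisB G z v X) (X' + chrisB G z v X) - G z (curv G z X v v) X) := by
  have hs : G z (curv G z X v v) X = - G z (curv G z X v X) v := curv_skew2 h hz X v v X
  have c1 : ∀ a b c : V, fderiv ℝ G z a b c = G z (chrisB G z a b) c + G z b (chrisB G z a c) := by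
    intro a b c
    rw [h.chris_compat hz, chrisB_apply, chrisB_apply]
  have s1 : ∀ a b : V, G z a b = G z b a := fun a b => h.symm z hz a b
  have s2 : ∀ a b : V, chrisB G z a b = chrisB G z b a := fun a b => chrisB_symm h hz a b
  rw [fderiv_qf h (p := (z, v)) hz, fderiv2_qf h (p := (z, v)) hz, fderiv2_metric h hz, hs,
    h.curv_eq hz X v X]
  simp only [c1, map_neg, neg_apply, map_sub, sub_apply, map_add, add_apply, map_smul, smul_apply,
    smul_eq_mul]
  rw [s2 v X, s2 X' X, s2 (chrisB G z X X) v, fderiv_chrisB_symm h hz X v X,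
    s1 v (chrisB G z v (chrisB G z X X)), s1 X' (chrisB G z X v)]
  ring

end Vale.Agent.P211.H695

end
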