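import Vale.Agent.P211.H695.Geo

/-! P211, two-point principle: parallel frame along the segment and the second variation. -/

set_option linter.all false
set_option maxSynthPendingDepth 3

open Set Filter Topology MeasureTheory
open scoped ContDiff
open Vale.Agent.P255

noncomputable section

namespace Vale.Agent.P211.H695

variable {V : Type} [NormedAddCommGroup V] [NormedSpace ℝ V] [FiniteDimensional ℝ V]
  {G : V → V →L[ℝ] V →L[ℝ] ℝ} {U : Set V}
variable {M : Type*} [PseudoMetricSpace M] {ψ : V → M} {v : V} {R : ℝ}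

/-- a unit vector orthogonal to fewer than `4` vectors -/
theorem exists_orth (hdim : Module.finrank ℝ V = 4) (B : V →L[ℝ] V →L[ℝ] ℝ)
    (hpos : ∀ w, w ≠ 0 → 0 < B w w) {k : ℕ} (hk : k < 4) (b : Fin k → V) :
    ∃ w, B w w = 1 ∧ ∀ j, B (b j) w = 0 := by
  let L : V →ₗ[ℝ] (Fin k → ℝ) := LinearMap.pi fun j => (B (b j) : V →ₗ[ℝ] ℝ)
  have h1 : LinearMap.ker L ≠ ⊥ := by
    apply LinearMap.ker_ne_bot_of_finrank_lt
    rw [hdim, Module.finrank_fin_fun]
    exact hk
  obtain ⟨w, hw, hw0⟩ := Submodule.exists_mem_ne_zero_of_ne_bot h1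
  have h2 : 0 < B w w := hpos w hw0
  have h3 : ∀ j, B (b j) w = 0 := by
    intro j
    have := congrFun (LinearMap.mem_ker.1 hw) j
    exact this
  refine ⟨(√(B w w))⁻¹ • w, ?_, fun j => by rw [map_smul, h3 j, smul_zero]⟩
  rw [map_smul, map_smul, smul_apply, smul_eq_mul, smul_eq_mul]
  have h4 : √(B w w) * √(B w w) = B w w := Real.mul_self_sqrt h2.le
  have h5 : √(B w w) ≠ 0 := (Real.sqrt_pos.2 h2).ne'
  field_simp
  nlinarith [h4]

/-- an orthonormal basis with a given first vector -/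
theorem exists_on (hdim : Module.finrank ℝ V = 4) (B : V →L[ℝ] V →L[ℝ] ℝ)
    (hsymm : ∀ a b, B a b = B b a) (hpos : ∀ w, w ≠ 0 → 0 < B w w) {v : V} (hv : B v v = 1) :
    ∃ b : Fin 4 → V, b 0 = v ∧ ∀ i j, B (b i) (b j) = if i = j then 1 else 0 := by
  obtain ⟨w1, h11, h1⟩ := exists_orth hdim B hpos (k := 1) (by norm_num) ![v]
  obtain ⟨w2, h22, h2⟩ := exists_orth hdim B hpos (k := 2) (by norm_num) ![v, w1]
  obtain ⟨w3, h33, h3⟩ := exists_orth hdim B hpos (k := 3) (by norm_num) ![v, w1, w2]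
  have a01 : B v w1 = 0 := h1 0
  have a02 : B v w2 = 0 := h2 0
  have a12 : B w1 w2 = 0 := h2 1
  have a03 : B v w3 = 0 := h3 0
  have a13 : B w1 w3 = 0 := h3 1
  have a23 : B w2 w3 = 0 := h3 2
  refine ⟨![v, w1, w2, w3], rfl, ?_⟩
  intro i j
  fin_cases i <;> fin_cases j <;>
    simp [hv, h11, h22, h33, a01, a02, a12, a03, a13, a23, hsymm w1 v, hsymm w2 v, hsymm w3 v,
      hsymm w2 w1, hsymm w3 w1, hsymm w3 w2]

/-- A parallel orthonormal frame along the segment, with first field the velocity. -/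
structure PFrame (G : V → V →L[ℝ] V →L[ℝ] ℝ) (v : V) (R : ℝ) (β : Fin 4 → ℝ → V) : Prop where
  smooth : ∀ i, ContDiff ℝ ∞ (β i)
  zero : ∀ t, β 0 t = v
  par : ∀ i t, |t| ≤ R → HasDerivAt (β i) (-(chrisB G (t • v) v (β i t))) t
  on : ∀ t, |t| ≤ R → ∀ i j, G (t • v) (β i t) (β j t) = if i = j then 1 else 0

theorem Seg.exists_frame (h : Seg G U ψ v R) (hdim : Module.finrank ℝ V = 4) :
    ∃ β, PFrame G v R β := by
  have hR := h.pos
  have hm0 : (0 : ℝ) • v ∈ U := h.mem 0 (by rw [abs_zero]; exact hR.le)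
  obtain ⟨b, hb0, hb⟩ := exists_on hdim (G ((0 : ℝ) • v)) (h.geo.met.symm _ hm0)
    (h.geo.met.pos _ hm0) (h.unit 0 hm0)
  obtain ⟨Γ, hΓ, hΓe⟩ := h.exists_ext
  choose γ hγs hγ0 hγd using fun i => h.exists_par hΓ (b i)
  set β : Fin 4 → ℝ → V := fun i => if i = 0 then fun _ => v else γ i with hβ
  have hd : ∀ i t, |t| ≤ R → HasDerivAt (β i) (-(chrisB G (t • v) v (β i t))) t := by
    intro i t ht
    by_cases hi : i = 0
    · simp only [hβ, hi, if_true]
      rw [h.chris_zero t ht, neg_zero]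
      exact hasDerivAt_const t v
    · simp only [hβ, hi, if_false]
      have h1 := hγd i t
      rwa [(hΓe t ht).self_of_nhds] at h1
  have hβ0 : ∀ i, β i 0 = b i := by
    intro i
    by_cases hi : i = 0
    · simp only [hβ, hi, if_true, hb0]
    · simp only [hβ, hi, if_false, hγ0]
  refine ⟨β, ?_, ?_, hd, ?_⟩
  · intro i
    by_cases hi : i = 0
    · simp only [hβ, hi, if_true]; exact contDiff_const
    · simp only [hβ, hi, if_false]; exact hγs i
  · intro t; simp [hβ]
  · intro t ht i j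
    have hder : ∀ s, |s| ≤ R → HasDerivAt (fun s => G (s • v) (β i s) (β j s)) 0 s := by
      intro s hs
      have h1 := h.hasDerivAt_met hs (hd i s hs) (hd j s hs)
      refine h1.congr_deriv ?_
      simp
    have hc : ∀ x ∈ Icc (-R) R, G (x • v) (β i x) (β j x) =
        G ((-R) • v) (β i (-R)) (β j (-R)) := by
      refine constant_of_has_deriv_right_zero ?_ ?_
      · intro x hx
        exact (hder x (abs_le.2 hx)).continuousAt.continuousWithinAt
      · intro x hx
        exact (hder x (abs_le.2 (Ico_subset_Icc_self hx))).hasDerivWithinAt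
    have h0 := hc 0 ⟨by linarith, hR.le⟩
    rw [hc t (abs_le.1 ht), ← h0, hβ0, hβ0]
    exact hb i j

/-- the endpoint of the variation at time `t` -/
def vpt (G : V → V →L[ℝ] V →L[ℝ] ℝ) (v : V) (t : ℝ) (b : V) (l s : ℝ) : V :=
  t • v + s • (l • b) + (s ^ 2 / 2) • (-(l ^ 2 • chrisB G (t • v) b b))

/-- the profile of the variation -/
def prf (R l m t : ℝ) : ℝ := (l * Real.sin (R - t) + m * Real.sin (R + t)) / Real.sin (2 * R)

/-- its derivative -/
def prf' (R l m t : ℝ) : ℝ := (m * Real.cos (R + t) - l * Real.cos (R - t)) / Real.sin (2 * R)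

theorem prf_deriv (R l m t : ℝ) : HasDerivAt (prf R l m) (prf' R l m t) t := by
  have h1 : HasDerivAt (fun t => Real.sin (R - t)) (Real.cos (R - t) * (-1)) t :=
    (Real.hasDerivAt_sin (R - t)).comp t ((hasDerivAt_id t).const_sub R)
  have h2 : HasDerivAt (fun t => Real.sin (R + t)) (Real.cos (R + t) * 1) t :=
    (Real.hasDerivAt_sin (R + t)).comp t ((hasDerivAt_id t).const_add R)
  have h3 := ((h1.const_mul l).add (h2.const_mul m)).div_const (Real.sin (2 * R))
  refine h3.congr_deriv ?_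
  unfold prf'
  ring

theorem prf'_deriv (R l m t : ℝ) : HasDerivAt (prf' R l m) (-(prf R l m t)) t := by
  have h1 : HasDerivAt (fun t => Real.cos (R - t)) (-Real.sin (R - t) * (-1)) t :=
    (Real.hasDerivAt_cos (R - t)).comp t ((hasDerivAt_id t).const_sub R)
  have h2 : HasDerivAt (fun t => Real.cos (R + t)) (-Real.sin (R + t) * 1) t :=
    (Real.hasDerivAt_cos (R + t)).comp t ((hasDerivAt_id t).const_add R)
  have h3 := ((h2.const_mul m).sub (h1.const_mul l)).div_const (Real.sin (2 * R))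
  refine h3.congr_deriv ?_
  unfold prf
  ring

theorem prf_smooth (R l m : ℝ) : ContDiff ℝ ∞ (prf R l m) := by
  unfold prf
  have h1 : ContDiff ℝ ∞ fun t => Real.sin (R - t) :=
    Real.contDiff_sin.comp (contDiff_const.sub contDiff_id)
  have h2 : ContDiff ℝ ∞ fun t => Real.sin (R + t) :=
    Real.contDiff_sin.comp (contDiff_const.add contDiff_id)
  exact ((contDiff_const.mul h1).add (contDiff_const.mul h2)).div_const _

theorem prf_left {R : ℝ} (hR : Real.sin (2 * R) ≠ 0) (l m : ℝ) : prf R l m (-R) = l := by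
  unfold prf
  have e1 : R - -R = 2 * R := by ring
  have e2 : R + -R = 0 := by ring
  rw [e1, e2, Real.sin_zero]
  field_simp
  ring

theorem prf_right {R : ℝ} (hR : Real.sin (2 * R) ≠ 0) (l m : ℝ) : prf R l m R = m := by
  unfold prf
  have e1 : R - R = 0 := by ring
  have e2 : R + R = 2 * R := by ring
  rw [e1, e2, Real.sin_zero]
  field_simp
  ring

theorem prf_int {R : ℝ} (hR : Real.sin (2 * R) ≠ 0) (l m : ℝ) :
    (∫ t in (-R)..R, (prf' R l m t ^ 2 - prf R l m t ^ 2)) =
      ((l ^ 2 + m ^ 2) * Real.cos (2 * R) - 2 * l * m) / Real.sin (2 * R) := by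
  have h1 : ∀ t ∈ uIcc (-R) R, HasDerivAt (fun t => prf R l m t * prf' R l m t)
      (prf' R l m t ^ 2 - prf R l m t ^ 2) t := by
    intro t _
    refine ((prf_deriv R l m t).mul (prf'_deriv R l m t)).congr_deriv ?_
    ring
  have hc : Continuous fun t => prf' R l m t ^ 2 - prf R l m t ^ 2 := by
    have h2 : Continuous (prf' R l m) := continuous_iff_continuousAt.2 fun t =>
      (prf'_deriv R l m t).continuousAt
    have h3 : Continuous (prf R l m) := continuous_iff_continuousAt.2 fun t =>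
      (prf_deriv R l m t).continuousAt
    fun_prop
  rw [intervalIntegral.integral_eq_sub_of_hasDerivAt h1 (hc.intervalIntegrable _ _),
    prf_left hR, prf_right hR]
  unfold prf'
  have e1 : R - -R = 2 * R := by ring
  have e2 : R + -R = 0 := by ring
  have e3 : R - R = 0 := by ring
  have e4 : R + R = 2 * R := by ring
  rw [e1, e2, e3, e4, Real.cos_zero]
  field_simp
  ring

theorem dist_of_sq {d R s I ε : ℝ} (hd : 0 ≤ d) (h : d ^ 2 ≤ 2 * R * (2 * R + s ^ 2 / 2 * (I + ε)))
    (hx : 0 ≤ 2 * R + s ^ 2 / 2 * (I / 2 + ε / 2)) : d ≤ 2 * R + s ^ 2 / 2 * (I / 2 + ε / 2) := by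
  refine abs_le_of_sq_le_sq' ?_ hx |>.2
  nlinarith [sq_nonneg (s ^ 2 / 2 * (I / 2 + ε / 2))]

/-- **Second variation**, transversal directions, general profile. -/
theorem Seg.transversal_gen (h : Seg G U ψ v R) {β : Fin 4 → ℝ → V} (hβ : PFrame G v R β)
    {f : ℝ → ℝ} (hfs : ContDiff ℝ ∞ f) :
    ∃ b : Fin 3 → ℝ, (∑ i, b i = 3 * ∫ t in (-R)..R, (deriv f t ^ 2 - f t ^ 2)) ∧
      ∀ i, ∀ ε > 0, ∀ᶠ s in 𝓝 (0 : ℝ),
        dist (ψ (vpt G v (-R) (β i.succ (-R)) (f (-R)) s))
            (ψ (vpt G v R (β i.succ R) (f R) s)) ≤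
          2 * R + s ^ 2 / 2 * (b i + ε) := by
  have hRp := h.pos
  have hle : -R ≤ R := by linarith
  obtain ⟨Γ, hΓ, hΓe⟩ := h.exists_ext
  have hfd : ∀ t, HasDerivAt f (deriv f t) t := fun t => (hfs.differentiable (by simp) t).hasDerivAt
  set ξ : Fin 3 → ℝ → V := fun i t => f t • β i.succ t with hξ
  set η : Fin 3 → ℝ → V := fun i t => -(Γ t (ξ i t) (ξ i t)) with hη
  have hξs : ∀ i, ContDiff ℝ ∞ (ξ i) := fun i => hfs.smul (hβ.smooth i.succ)
  have hηs : ∀ i, ContDiff ℝ ∞ (η i) := fun i =>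
    ((hΓ.clm_apply (hξs i)).clm_apply (hξs i)).neg
  have hξd : ∀ i t, |t| ≤ R → HasDerivAt (ξ i)
      (deriv f t • β i.succ t - chrisB G (t • v) v (ξ i t)) t := by
    intro i t ht
    have h1 := (hfd t).smul (hβ.par i.succ t ht)
    refine h1.congr_deriv ?_
    simp only [hξ, map_smul, smul_neg]
    abel
  have hηd : ∀ i t, |t| ≤ R → HasDerivAt (η i)
      (-(fderiv ℝ (chrisB G) (t • v) v (ξ i t) (ξ i t))
        - (2 : ℝ) • chrisB G (t • v) (deriv (ξ i) t) (ξ i t)) t := by
    intro i t ht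
    have hm := h.mem t ht
    have hc : HasDerivAt (fun s : ℝ => s • v) v t := by
      simpa using (hasDerivAt_id t).smul_const v
    have h0 : HasFDerivAt (chrisB G) (fderiv ℝ (chrisB G) (t • v)) (t • v) :=
      (h.geo.met.differentiableAt_chrisB hm).hasFDerivAt
    have h1 : HasDerivAt (chrisB G ∘ fun s : ℝ => s • v) (fderiv ℝ (chrisB G) (t • v) v) t :=
      HasFDerivAt.comp_hasDerivAt (l := chrisB G) (f := fun s : ℝ => s • v) t h0 hc
    have h2 : HasDerivAt Γ (fderiv ℝ (chrisB G) (t • v) v) t := h1.congr_of_eventuallyEq (hΓe t ht)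
    have h3 : HasDerivAt (ξ i) (deriv (ξ i) t) t :=
      ((hξs i).differentiable (by simp) t).hasDerivAt
    have h4 := ((h2.clm_apply h3).clm_apply h3).neg
    refine h4.congr_deriv ?_
    rw [(hΓe t ht).self_of_nhds]
    simp only [add_apply]
    rw [chrisB_symm h.geo.met hm (ξ i t) (deriv (ξ i) t), two_smul]
    abel
  have hηe : ∀ i t, |t| ≤ R → η i t = -(chrisB G (t • v) (ξ i t) (ξ i t)) := by
    intro i t ht
    simp only [hη]
    rw [(hΓe t ht).self_of_nhds]
  -- the first order term vanishes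
  have hD1 : ∀ i t, |t| ≤ R → D1 G v (ξ i) t = 0 := by
    intro i t ht
    have hm := h.mem t ht
    unfold D1
    rw [fderiv_qf h.geo.met (p := (t • v, v)) hm]
    simp only
    rw [h.geo.met.chris_compat hm, ← chrisB_apply, (hξd i t ht).deriv,
      chrisB_symm h.geo.met hm (ξ i t) v, h.geo.met.symm _ hm v]
    have h1 : G (t • v) (β i.succ t) v = 0 := by
      have h2 := hβ.on t ht i.succ 0
      rw [hβ.zero t, if_neg (Fin.succ_ne_zero i)] at h2
      exact h2
    simp only [map_sub, map_smul, sub_apply, smul_apply, smul_eq_mul, h1]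
    ring
  -- the second order term
  have hD2 : ∀ i t, |t| ≤ R → D2 G v (ξ i) (η i) t = 2 * (deriv f t ^ 2 -
      f t ^ 2 * G (t • v) (curv G (t • v) (β i.succ t) v v) (β i.succ t)) := by
    intro i t ht
    have hm := h.mem t ht
    unfold D2
    rw [hηe i t ht, (hηd i t ht).deriv, second_density h.geo.met hm v (ξ i t) (deriv (ξ i) t),
      (hξd i t ht).deriv]
    have e1 : deriv f t • β i.succ t - chrisB G (t • v) v (ξ i t) +
        chrisB G (t • v) v (ξ i t) = deriv f t • β i.succ t := by abel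
    have e2 : curv G (t • v) (ξ i t) v v = f t • curv G (t • v) (β i.succ t) v v := by
      rw [h.geo.met.curv_eq hm, h.geo.met.curv_eq hm]
      simp only [hξ, map_smul, smul_apply, smul_add, smul_sub]
    rw [e1, e2]
    simp only [hξ, map_smul, smul_apply, smul_eq_mul]
    rw [hβ.on t ht i.succ i.succ, if_pos rfl]
    ring
  have hsum : ∀ t, |t| ≤ R → ∑ i, D2 G v (ξ i) (η i) t =
      6 * (deriv f t ^ 2 - f t ^ 2) := by
    intro t ht
    have hm := h.mem t ht
    have h1 := h.geo.ric (t • v) hm v (fun i => β i t) (hβ.on t ht)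
    rw [Fin.sum_univ_succ] at h1
    simp only [hβ.zero] at h1
    rw [h.geo.met.curv_skew hm, h.unit t hm, zero_add] at h1
    rw [Finset.sum_congr rfl fun i _ => hD2 i t ht, ← Finset.mul_sum, Finset.sum_sub_distrib,
      ← Finset.mul_sum, h1]
    simp
    ring
  have hi : ∀ i, IntervalIntegrable (D2 G v (ξ i) (η i)) volume (-R) R := fun i =>
    (h.contD2 (hξs i) (hηs i)).intervalIntegrable_of_Icc hle
  refine ⟨fun i => (∫ t in (-R)..R, D2 G v (ξ i) (η i) t) / 2, ?_, ?_⟩
  · rw [← Finset.sum_div, ← intervalIntegral.integral_finset_sum fun i _ => hi i]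
    have e1 : (∫ t in (-R)..R, ∑ i, D2 G v (ξ i) (η i) t) =
        ∫ t in (-R)..R, 6 * (deriv f t ^ 2 - f t ^ 2) := by
      refine intervalIntegral.integral_congr fun t ht => ?_
      rw [uIcc_of_le hle] at ht
      exact hsum t (abs_le.2 ht)
    rw [e1, intervalIntegral.integral_const_mul]
    ring
  · intro i ε hε
    have h1 := h.expand (hξs i) (hηs i) (ε := 2 * ε) (by positivity)
    have h2 : (∫ t in (-R)..R, D1 G v (ξ i) t) = 0 := by
      rw [intervalIntegral.integral_congr (g := fun _ => (0 : ℝ)) fun t ht => by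
        rw [uIcc_of_le hle] at ht
        exact hD1 i t (abs_le.2 ht)]
      simp
    have h3 : ∀ᶠ s in 𝓝 (0 : ℝ), 0 ≤ 2 * R + s ^ 2 / 2 *
        ((∫ t in (-R)..R, D2 G v (ξ i) (η i) t) / 2 + 2 * ε / 2) := by
      have hc : Continuous fun s : ℝ => 2 * R + s ^ 2 / 2 *
        ((∫ t in (-R)..R, D2 G v (ξ i) (η i) t) / 2 + 2 * ε / 2) := by fun_prop
      have h4 := hc.continuousAt (x := (0 : ℝ))
      have h5 : (0 : ℝ) < 2 * R + (0 : ℝ) ^ 2 / 2 *
        ((∫ t in (-R)..R, D2 G v (ξ i) (η i) t) / 2 + 2 * ε / 2) := by simpa using hRp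
      filter_upwards [h4.eventually (lt_mem_nhds h5)] with s hs using hs.le
    filter_upwards [h1, h3] with s hs hs3
    rw [h2, mul_zero, add_zero] at hs
    have e1 : (-R) • v + s • ξ i (-R) + (s ^ 2 / 2) • η i (-R) =
        vpt G v (-R) (β i.succ (-R)) (f (-R)) s := by
      rw [hηe i (-R) (by rw [abs_neg, abs_of_pos hRp])]
      simp only [hξ, vpt, map_smul, smul_apply]
      simp only [smul_smul, ← sq]
    have e2 : R • v + s • ξ i R + (s ^ 2 / 2) • η i R = vpt G v R (β i.succ R) (f R) s := by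
      rw [hηe i R (by rw [abs_of_pos hRp])]
      simp only [hξ, vpt, map_smul, smul_apply]
      simp only [smul_smul, ← sq]
    rw [e1, e2] at hs
    have h6 := dist_of_sq dist_nonneg hs hs3
    refine h6.trans (le_of_eq ?_)
    ring

/-- **Second variation**, transversal directions. -/
theorem Seg.transversal (h : Seg G U ψ v R) {β : Fin 4 → ℝ → V} (hβ : PFrame G v R β)
    (hR : 2 * R < Real.pi) (l m : ℝ) :
    ∃ b : Fin 3 → ℝ, (∑ i, b i =
        3 * (((l ^ 2 + m ^ 2) * Real.cos (2 * R) - 2 * l * m) / Real.sin (2 * R))) ∧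
      ∀ i, ∀ ε > 0, ∀ᶠ s in 𝓝 (0 : ℝ),
        dist (ψ (vpt G v (-R) (β i.succ (-R)) l s)) (ψ (vpt G v R (β i.succ R) m s)) ≤
          2 * R + s ^ 2 / 2 * (b i + ε) := by
  have hRp := h.pos
  have hsin : Real.sin (2 * R) ≠ 0 := (Real.sin_pos_of_pos_of_lt_pi (by linarith) hR).ne'
  obtain ⟨b, hb, hd⟩ := h.transversal_gen hβ (prf_smooth R l m)
  refine ⟨b, ?_, ?_⟩
  · rw [hb, ← prf_int hsin]
    congr 1
    refine intervalIntegral.integral_congr fun t _ => ?_
    rw [(prf_deriv R l m t).deriv]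
  · rw [prf_left hsin, prf_right hsin] at hd
    exact hd

/-- Bonnet-Myers: the segment has length at most `π`. -/
theorem Seg.length_le (h : Seg G U ψ v R) (hdim : Module.finrank ℝ V = 4) :
    2 * R ≤ Real.pi := by
  by_contra hcon
  push Not at hcon
  have hRp := h.pos
  obtain ⟨β, hβ⟩ := h.exists_frame hdim
  set k : ℝ := Real.pi / (2 * R) with hk
  have hkR : k * R = Real.pi / 2 := by rw [hk]; field_simp
  have hfs : ContDiff ℝ ∞ fun t : ℝ => Real.cos (k * t) :=
    Real.contDiff_cos.comp (contDiff_const.mul contDiff_id)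
  obtain ⟨b, hb, hd⟩ := h.transversal_gen hβ hfs
  have hpi := Real.pi_pos
  have hk0 : 0 < k := by positivity
  have hk1 : k < 1 := by rw [hk, div_lt_one (by positivity)]; exact hcon
  have e1 : Real.cos (k * R) = 0 := by rw [hkR, Real.cos_pi_div_two]
  have e2 : Real.cos (k * -R) = 0 := by rw [mul_neg, Real.cos_neg, e1]
  -- the integral is negative
  have hint : (∫ t in (-R)..R, (deriv (fun t : ℝ => Real.cos (k * t)) t ^ 2 -
      Real.cos (k * t) ^ 2)) < 0 := by
    have hd1 : ∀ t : ℝ, HasDerivAt (fun t : ℝ => Real.cos (k * t)) (-Real.sin (k * t) * k) t := by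
      intro t
      have h0 : HasDerivAt (fun t : ℝ => k * t) k t := by
        simpa using (hasDerivAt_id t).const_mul k
      exact h0.cos
    have hd2 : ∀ t : ℝ, HasDerivAt (fun t : ℝ => Real.sin (k * t)) (Real.cos (k * t) * k) t := by
      intro t
      have h0 : HasDerivAt (fun t : ℝ => k * t) k t := by
        simpa using (hasDerivAt_id t).const_mul k
      exact h0.sin
    have hF : ∀ t ∈ uIcc (-R) R, HasDerivAt (fun t : ℝ => (k ^ 2 - 1) / 2 * t -
        (k ^ 2 + 1) / (2 * k) * (Real.sin (k * t) * Real.cos (k * t)))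
        (deriv (fun t : ℝ => Real.cos (k * t)) t ^ 2 - Real.cos (k * t) ^ 2) t := by
      intro t _
      have h1 := ((hasDerivAt_id t).const_mul ((k ^ 2 - 1) / 2)).sub
        (((hd2 t).mul (hd1 t)).const_mul ((k ^ 2 + 1) / (2 * k)))
      refine h1.congr_deriv ?_
      rw [(hd1 t).deriv]
      have hs := Real.sin_sq_add_cos_sq (k * t)
      have hs' : Real.sin (k * t) ^ 2 = 1 - Real.cos (k * t) ^ 2 := by linarith
      field_simp
      ring_nf
      rw [hs']
      ring
    rw [intervalIntegral.integral_eq_sub_of_hasDerivAt hF]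
    · rw [e1, e2]
      have : (k ^ 2 - 1) / 2 * R - (k ^ 2 + 1) / (2 * k) * (Real.sin (k * R) * 0) -
          ((k ^ 2 - 1) / 2 * -R - (k ^ 2 + 1) / (2 * k) * (Real.sin (k * -R) * 0)) =
          (k ^ 2 - 1) * R := by ring
      rw [this]
      have : k ^ 2 < 1 := by nlinarith
      nlinarith
    · have hc : Continuous fun t : ℝ => deriv (fun t : ℝ => Real.cos (k * t)) t ^ 2 -
          Real.cos (k * t) ^ 2 := by
        have : (deriv fun t : ℝ => Real.cos (k * t)) = fun t => -Real.sin (k * t) * k :=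
          funext fun t => (hd1 t).deriv
        rw [this]
        fun_prop
      exact hc.intervalIntegrable _ _
  -- some `b i` is negative
  obtain ⟨i, hi⟩ : ∃ i, b i < 0 := by
    by_contra hcon
    push Not at hcon
    have : 0 ≤ ∑ i, b i := Finset.sum_nonneg fun i _ => hcon i
    linarith
  have h1 := hd i (-(b i) / 2) (by linarith)
  have h2 : ∀ᶠ s in 𝓝 (0 : ℝ), 2 * R ≤ 2 * R + s ^ 2 / 2 * (b i / 2) := by
    filter_upwards [h1] with s hs
    have e3 : vpt G v (-R) (β i.succ (-R)) (Real.cos (k * -R)) s = (-R) • v := by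
      rw [e2]; simp [vpt]
    have e4 : vpt G v R (β i.succ R) (Real.cos (k * R)) s = R • v := by
      rw [e1]; simp [vpt]
    rw [e3, e4, h.mini] at hs
    refine hs.trans (le_of_eq ?_)
    ring
  obtain ⟨δ, hδ, hball⟩ := Metric.eventually_nhds_iff.1 h2
  have h3 := hball (y := δ / 2) (by
    rw [Real.dist_eq, sub_zero, abs_of_pos (by positivity)]; linarith)
  nlinarith [mul_pos (mul_pos hδ hδ) (neg_pos.2 hi)]

/-- **Second variation**, longitudinal direction. -/
theorem Seg.longitudinal (h : Seg G U ψ v R) (l m : ℝ) : ∀ᶠ s in 𝓝 (0 : ℝ),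
    dist (ψ ((-R + s * l) • v)) (ψ ((R + s * m) • v)) ≤ 2 * R + s * (m - l) := by
  have hRp := h.pos
  obtain ⟨δ, hδ, hmem⟩ := h.exists_delta
  have c1 : Continuous fun s : ℝ => -R + s * l := by fun_prop
  have c2 : Continuous fun s : ℝ => R + s * m := by fun_prop
  have a1 : ∀ᶠ s in 𝓝 (0 : ℝ), -R - δ < -R + s * l ∧ -R + s * l < 0 := by
    have := c1.continuousAt (x := (0 : ℝ))
    have h1 : -R - δ < -R + 0 * l := by linarith
    have h2 : -R + 0 * l < 0 := by linarith
    filter_upwards [this.eventually (lt_mem_nhds h1), this.eventually (gt_mem_nhds h2)] with s x y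
      using ⟨x, y⟩
  have a2 : ∀ᶠ s in 𝓝 (0 : ℝ), 0 < R + s * m ∧ R + s * m < R + δ := by
    have := c2.continuousAt (x := (0 : ℝ))
    have h1 : 0 < R + 0 * m := by linarith
    have h2 : R + 0 * m < R + δ := by linarith
    filter_upwards [this.eventually (lt_mem_nhds h1), this.eventually (gt_mem_nhds h2)] with s x y
      using ⟨x, y⟩
  filter_upwards [a1, a2] with s h1 h2
  have hle : -R + s * l ≤ R + s * m := by linarith
  have hU : ∀ t ∈ Icc (-R + s * l) (R + s * m), t • v ∈ U := by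
    intro t ht
    refine hmem t ?_
    rw [abs_lt]
    constructor <;> linarith [ht.1, ht.2, h1.1, h2.2]
  have he := h.geo.energy (fun t => t • v) _ _ hle (contDiff_id.smul contDiff_const) hU
  have hd : ∀ t : ℝ, deriv (fun t : ℝ => t • v) t = v := by
    intro t
    have : HasDerivAt (fun t : ℝ => t • v) v t := by
      simpa using (hasDerivAt_id t).smul_const v
    exact this.deriv
  have hi : (∫ t in (-R + s * l)..(R + s * m), qf G (t • v, deriv (fun t : ℝ => t • v) t)) =
      (R + s * m) - (-R + s * l) := by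
    have : (∫ t in (-R + s * l)..(R + s * m), qf G (t • v, deriv (fun t : ℝ => t • v) t)) =
        ∫ t in (-R + s * l)..(R + s * m), (1 : ℝ) := by
      refine intervalIntegral.integral_congr fun t ht => ?_
      rw [uIcc_of_le hle] at ht
      simp only [hd]
      exact h.unit t (hU t ht)
    rw [this]; simp
  rw [hi, ← sq] at he
  have h5 := abs_le_of_sq_le_sq' he (by linarith)
  linarith [h5.2]

end Vale.Agent.P211.H695

end
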