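import Vale.Agent.P211.H695.Jet
import Vale.Agent.P211.H695.Var

/-! P211, two-point principle: the two-point maximum principle in a chart. -/

set_option linter.all false
set_option maxSynthPendingDepth 3

open Set Filter Topology MeasureTheory
open scoped ContDiff
open Vale.Agent.P255

noncomputable section

namespace Vale.Agent.P211.H695

variable {V : Type} [NormedAddCommGroup V] [NormedSpace ℝ V] [FiniteDimensional ℝ V]
  {G : V → V →L[ℝ] V →L[ℝ] ℝ} {U : Set V}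
variable {M : Type*} [PseudoMetricSpace M] {ψ : V → M} {v : V} {R : ℝ}

/-- the Hessian of `f` in the direction `b` -/
def Hs (G : V → V →L[ℝ] V →L[ℝ] ℝ) (f : V → ℝ) (u b : V) : ℝ :=
  fderiv ℝ (fderiv ℝ f) u b b - fderiv ℝ f u (chrisB G u b b)

theorem vpt_jet (G : V → V →L[ℝ] V →L[ℝ] ℝ) (v : V) (t : ℝ) (b : V) (l : ℝ) :
    Jet2 (vpt G v t b l) (t • v) (l • b) (-(l ^ 2 • chrisB G (t • v) b b)) :=
  Jet2.poly _ _ _

theorem vpt_comp {f : V → ℝ} {t : ℝ} (hf : ContDiffAt ℝ 2 f (t • v)) (b : V) (l : ℝ) :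
    Jet2 (fun s => f (vpt G v t b l s)) (f (t • v)) (l * fderiv ℝ f (t • v) b)
      (l ^ 2 * Hs G f (t • v) b) := by
  have h := (vpt_jet G v t b l).comp hf
  have e1 : fderiv ℝ f (t • v) (l • b) = l * fderiv ℝ f (t • v) b := by
    rw [map_smul, smul_eq_mul]
  have e2 : fderiv ℝ (fderiv ℝ f) (t • v) (l • b) (l • b) +
      fderiv ℝ f (t • v) (-(l ^ 2 • chrisB G (t • v) b b)) = l ^ 2 * Hs G f (t • v) b := by
    unfold Hs
    simp only [map_smul, map_neg, smul_apply, smul_eq_mul]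
    ring
  rw [e1, e2] at h
  exact h

/-- the data of a touching point -/
structure Touch (G : V → V →L[ℝ] V →L[ℝ] ℝ) (ψ : V → M) (v : V) (R : ℝ) (φ χ : V → ℝ)
    (Λ : ℝ × ℝ × ℝ → ℝ) : Prop where
  hφ : ContDiffAt ℝ 2 φ ((-R) • v)
  hχ : ContDiffAt ℝ 2 χ (R • v)
  hΛ : ContDiffAt ℝ 2 Λ (φ ((-R) • v), χ (R • v), 2 * R)
  h0 : Λ (φ ((-R) • v), χ (R • v), 2 * R) = 0
  hle : ∀ᶠ q in 𝓝 (((-R) • v, R • v, 2 * R) : V × V × ℝ),
    dist (ψ q.1) (ψ q.2.1) ≤ q.2.2 → Λ (φ q.1, χ q.2.1, q.2.2) ≤ 0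

/-- one direction -/
theorem Touch.dir {φ χ : V → ℝ} {Λ : ℝ × ℝ × ℝ → ℝ} (h : Touch G ψ v R φ χ Λ)
    {b b' : V} {l m κ c : ℝ}
    (hd : ∀ᶠ s in 𝓝 (0 : ℝ), dist (ψ (vpt G v (-R) b l s)) (ψ (vpt G v R b' m s)) ≤
      2 * R + s * κ + s ^ 2 / 2 * c) :
    fderiv ℝ Λ (φ ((-R) • v), χ (R • v), 2 * R)
        (l * fderiv ℝ φ ((-R) • v) b, m * fderiv ℝ χ (R • v) b', κ) = 0 ∧
      fderiv ℝ (fderiv ℝ Λ) (φ ((-R) • v), χ (R • v), 2 * R)
          (l * fderiv ℝ φ ((-R) • v) b, m * fderiv ℝ χ (R • v) b', κ)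
          (l * fderiv ℝ φ ((-R) • v) b, m * fderiv ℝ χ (R • v) b', κ) +
        fderiv ℝ Λ (φ ((-R) • v), χ (R • v), 2 * R)
          (l ^ 2 * Hs G φ ((-R) • v) b, m ^ 2 * Hs G χ (R • v) b', c) ≤ 0 := by
  have j1 := vpt_comp (G := G) h.hφ b l
  have j2 := vpt_comp (G := G) h.hχ b' m
  have j3 : Jet2 (fun s : ℝ => 2 * R + s * κ + s ^ 2 / 2 * c) (2 * R) κ c := by
    have := Jet2.poly (2 * R) κ c
    simpa only [smul_eq_mul] using this
  have j4 := (j1.prodMk (j2.prodMk j3)).comp h.hΛ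
  have t1 : Tendsto (fun s : ℝ => ((vpt G v (-R) b l s, vpt G v R b' m s,
      2 * R + s * κ + s ^ 2 / 2 * c) : V × V × ℝ)) (𝓝 0) (𝓝 ((-R) • v, R • v, 2 * R)) :=
    ((vpt_jet G v (-R) b l).prodMk ((vpt_jet G v R b' m).prodMk j3)).tendsto
  have t2 : ∀ᶠ s in 𝓝 (0 : ℝ), Λ (φ (vpt G v (-R) b l s), χ (vpt G v R b' m s),
      2 * R + s * κ + s ^ 2 / 2 * c) ≤ 0 := by
    filter_upwards [t1.eventually h.hle, hd] with s h1 h2 using h1 h2
  rw [h.h0] at j4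
  exact j4.max t2

theorem eps_zero {X K : ℝ} (h : ∀ ε > 0, X + ε * K ≤ 0) : X ≤ 0 := by
  by_contra hcon
  push Not at hcon
  have h1 := h (X / (2 * (|K| + 1))) (by positivity)
  have h2 : -(|K|) ≤ K := neg_abs_le K
  have h3 : X / (2 * (|K| + 1)) * K ≥ -(X / 2) := by
    have h4 : X / (2 * (|K| + 1)) * K ≥ X / (2 * (|K| + 1)) * (-|K|) := by
      have : 0 < X / (2 * (|K| + 1)) := by positivity
      nlinarith
    have h5 : X / (2 * (|K| + 1)) * (-|K|) = -(X / 2) * (|K| / (|K| + 1)) := by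
      field_simp
    have h6 : |K| / (|K| + 1) ≤ 1 := by
      rw [div_le_one (by positivity)]; linarith
    have h7 : 0 ≤ |K| / (|K| + 1) := by positivity
    rw [h5] at h4
    nlinarith
  linarith

/-- **Two-point maximum principle** in a chart. -/
theorem Seg.tpmp (h : Seg G U ψ v R) {β : Fin 4 → ℝ → V} (hβ : PFrame G v R β)
    (hR : 2 * R < Real.pi) {φ χ : V → ℝ} {Λ : ℝ × ℝ × ℝ → ℝ} (ht : Touch G ψ v R φ χ Λ) :
    let DL := fderiv ℝ Λ (φ ((-R) • v), χ (R • v), 2 * R)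
    let HL := fderiv ℝ (fderiv ℝ Λ) (φ ((-R) • v), χ (R • v), 2 * R)
    let a : Fin 4 → ℝ := fun i => fderiv ℝ φ ((-R) • v) (β i (-R))
    let b : Fin 4 → ℝ := fun i => fderiv ℝ χ (R • v) (β i R)
    (∀ i, DL (a i, 0, 0) = if i = 0 then DL (0, 0, 1) else 0) ∧
    (∀ i, DL (0, b i, 0) = if i = 0 then - DL (0, 0, 1) else 0) ∧
    ∀ l m l0 m0 : ℝ, l0 ^ 2 = l ^ 2 → m0 ^ 2 = m ^ 2 →
      HL (l0 * a 0, m0 * b 0, m0 - l0) (l0 * a 0, m0 * b 0, m0 - l0) +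
        (∑ i : Fin 3, HL (l * a i.succ, m * b i.succ, 0) (l * a i.succ, m * b i.succ, 0)) +
        DL (l ^ 2 * ∑ i, Hs G φ ((-R) • v) (β i (-R)), m ^ 2 * ∑ i, Hs G χ (R • v) (β i R),
          3 * (((l ^ 2 + m ^ 2) * Real.cos (2 * R) - 2 * l * m) / Real.sin (2 * R))) ≤ 0 := by
  intro DL HL a b
  have hRp := h.pos
  -- longitudinal
  have hlong : ∀ l0 m0 : ℝ,
      DL (l0 * a 0, m0 * b 0, m0 - l0) = 0 ∧
      HL (l0 * a 0, m0 * b 0, m0 - l0) (l0 * a 0, m0 * b 0, m0 - l0) +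
        DL (l0 ^ 2 * Hs G φ ((-R) • v) (β 0 (-R)), m0 ^ 2 * Hs G χ (R • v) (β 0 R), 0) ≤ 0 := by
    intro l0 m0
    refine ht.dir (G := G) (b := β 0 (-R)) (b' := β 0 R) (l := l0) (m := m0) ?_
    filter_upwards [h.longitudinal l0 m0] with s hs
    have e1 : vpt G v (-R) (β 0 (-R)) l0 s = (-R + s * l0) • v := by
      rw [hβ.zero, vpt, h.chris_zero (-R) (by rw [abs_neg, abs_of_pos hRp])]
      simp only [smul_zero, neg_zero, add_zero]
      module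
    have e2 : vpt G v R (β 0 R) m0 s = (R + s * m0) • v := by
      rw [hβ.zero, vpt, h.chris_zero R (by rw [abs_of_pos hRp])]
      simp only [smul_zero, neg_zero, add_zero]
      module
    rw [e1, e2, mul_zero, add_zero]
    exact hs
  -- transversal
  have htr : ∀ l m : ℝ, ∃ c : Fin 3 → ℝ, (∑ i, c i =
        3 * (((l ^ 2 + m ^ 2) * Real.cos (2 * R) - 2 * l * m) / Real.sin (2 * R))) ∧
      ∀ i : Fin 3, DL (l * a i.succ, m * b i.succ, 0) = 0 ∧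
        HL (l * a i.succ, m * b i.succ, 0) (l * a i.succ, m * b i.succ, 0) +
        DL (l ^ 2 * Hs G φ ((-R) • v) (β i.succ (-R)), m ^ 2 * Hs G χ (R • v) (β i.succ R),
          c i) ≤ 0 := by
    intro l m
    obtain ⟨c, hc, hd⟩ := h.transversal hβ hR l m
    refine ⟨c, hc, fun i => ?_⟩
    have key : ∀ ε > 0, DL (l * a i.succ, m * b i.succ, 0) = 0 ∧
        HL (l * a i.succ, m * b i.succ, 0) (l * a i.succ, m * b i.succ, 0) +
        DL (l ^ 2 * Hs G φ ((-R) • v) (β i.succ (-R)), m ^ 2 * Hs G χ (R • v) (β i.succ R),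
          c i + ε) ≤ 0 := by
      intro ε hε
      refine ht.dir (G := G) (b := β i.succ (-R)) (b' := β i.succ R) (l := l) (m := m) ?_
      filter_upwards [hd i ε hε] with s hs
      rw [mul_zero, add_zero]
      exact hs
    refine ⟨(key 1 one_pos).1, ?_⟩
    refine eps_zero (K := DL (0, 0, 1)) fun ε hε => ?_
    have h1 := (key ε hε).2
    have e1 : ((l ^ 2 * Hs G φ ((-R) • v) (β i.succ (-R)),
        m ^ 2 * Hs G χ (R • v) (β i.succ R), c i + ε) : ℝ × ℝ × ℝ) =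
        (l ^ 2 * Hs G φ ((-R) • v) (β i.succ (-R)),
        m ^ 2 * Hs G χ (R • v) (β i.succ R), c i) + ε • (0, 0, 1) := by
      ext <;> simp
    rw [e1, map_add, map_smul, smul_eq_mul] at h1
    linarith
  refine ⟨fun i => ?_, fun i => ?_, ?_⟩
  · rcases Fin.eq_zero_or_eq_succ i with rfl | ⟨j, rfl⟩
    · have h1 := (hlong 1 0).1
      rw [if_pos rfl]
      have e1 : (((1 : ℝ) * a 0, (0 : ℝ) * b 0, (0 : ℝ) - 1) : ℝ × ℝ × ℝ) =
          (a 0, 0, 0) - (0, 0, 1) := by ext <;> simp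
      rw [e1, map_sub] at h1
      linarith
    · rw [if_neg (Fin.succ_ne_zero j)]
      obtain ⟨c, -, h2⟩ := htr 1 0
      have h1 := (h2 j).1
      rw [one_mul, zero_mul] at h1
      exact h1
  · rcases Fin.eq_zero_or_eq_succ i with rfl | ⟨j, rfl⟩
    · have h1 := (hlong 0 1).1
      rw [if_pos rfl]
      have e1 : (((0 : ℝ) * a 0, (1 : ℝ) * b 0, (1 : ℝ) - 0) : ℝ × ℝ × ℝ) =
          (0, b 0, 0) + (0, 0, 1) := by ext <;> simp
      rw [e1, map_add] at h1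
      linarith
    · rw [if_neg (Fin.succ_ne_zero j)]
      obtain ⟨c, -, h2⟩ := htr 0 1
      have h1 := (h2 j).1
      rw [one_mul, zero_mul] at h1
      exact h1
  · intro l m l0 m0 hl hm
    obtain ⟨c, hc, h2⟩ := htr l m
    have h1 := (hlong l0 m0).2
    rw [hl, hm] at h1
    have h3 := Finset.sum_le_sum fun i (_ : i ∈ (Finset.univ : Finset (Fin 3))) => (h2 i).2
    rw [Finset.sum_add_distrib, ← map_sum, Finset.sum_const_zero] at h3
    rw [Fin.sum_univ_succ (fun i => Hs G φ ((-R) • v) (β i (-R))),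
      Fin.sum_univ_succ (fun i => Hs G χ (R • v) (β i R)), ← hc]
    have e1 : ((l ^ 2 * (Hs G φ ((-R) • v) (β 0 (-R)) +
        ∑ i : Fin 3, Hs G φ ((-R) • v) (β i.succ (-R))),
        m ^ 2 * (Hs G χ (R • v) (β 0 R) + ∑ i : Fin 3, Hs G χ (R • v) (β i.succ R)),
        ∑ i, c i) : ℝ × ℝ × ℝ) =
        (l ^ 2 * Hs G φ ((-R) • v) (β 0 (-R)), m ^ 2 * Hs G χ (R • v) (β 0 R), 0) +
        ∑ i : Fin 3, (l ^ 2 * Hs G φ ((-R) • v) (β i.succ (-R)),
          m ^ 2 * Hs G χ (R • v) (β i.succ R), c i) := by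
      rw [Fin.sum_univ_three, Fin.sum_univ_three, Fin.sum_univ_three, Fin.sum_univ_three]
      ext <;> simp <;> ring
    rw [e1, map_add]
    linarith

end Vale.Agent.P211.H695

end
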