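import Vale.Agent.P211.H695.Tpmp
import Vale.Agent.P211.H775.Bridge
import Vale.Agent.P211.H580.Pull

/-! P211, route T: the two-point maximum principle on closed Einstein four-manifolds. -/

set_option maxSynthPendingDepth 3
set_option linter.all false

namespace Vale.Agent.P211.H695

open scoped Manifold ContDiff Topology
open Bundle Filter VectorField Set MeasureTheory
open Vale.Agent.P234 Vale.Agent.P231 Vale.Agent.P211.H775

noncomputable section

variable {E : Type*} [NormedAddCommGroup E] [NormedSpace ℝ E] [FiniteDimensional ℝ E]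
  {M : Type*} [MetricSpace M] [ChartedSpace E M] [IsManifold 𝓘(ℝ, E) ∞ M]
  [RiemannianBundle (fun x : M => TangentSpace 𝓘(ℝ, E) x)]
  [IsContMDiffRiemannianBundle 𝓘(ℝ, E) ∞ E (fun x : M => TangentSpace 𝓘(ℝ, E) x)]
  [IsRiemannianManifold 𝓘(ℝ, E) M] [CompactSpace M] [ConnectedSpace M]
  {e : ∀ x : M, TangentSpace 𝓘(ℝ, E) x → M}
  {cov : CovariantDerivative 𝓘(ℝ, E) E (TangentSpace 𝓘(ℝ, E) : M → Type _)}

/-- the pulled back metric as squared norm -/
theorem qf_eq (e : ∀ x : M, TangentSpace 𝓘(ℝ, E) x → M) (z : M) (ξ a : Eu E) :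
    qf (pb e z) (ξ, a) = nm (e z (fr z ξ : E)) (dE e z (fr z ξ) (fr z a)) ^ 2 := by
  unfold qf
  rw [pb_eq, ip_self]
  rfl

/-- the chart -/
theorem locGeo (hcov : IsLC cov) (hE : Module.finrank ℝ E = 4) (F : Facts e)
    (hEin : (S4.geo2Of hcov hE).Einstein 3) (z : M) : LocGeo (pb e z) (dom e z) (ef e z) where
  met := isMetricOn F z
  energy := by
    intro c a b hab hc hU
    have h1 : ContDiff ℝ 1 fun t => (fr z (c t) : E) := (fr z).contDiff.comp hc
    have h2 := H580.dist_sq_le_energy F.isExp z h1 hab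
    refine h2.trans (le_of_eq ?_)
    congr 1
    refine intervalIntegral.integral_congr fun t _ => ?_
    rw [qf_eq]
    have h3 : deriv (fun t => (fr z (c t) : E)) t = fr z (deriv c t) := by
      have h4 : HasDerivAt c (deriv c t) t := (hc.differentiable (by simp) t).hasDerivAt
      exact ((fr z).toContinuousLinearMap.hasFDerivAt.comp_hasDerivAt t h4).deriv
    simp only [h3]
  ric := by
    intro u hu w β hβ
    exact einstein_coord hcov hE F hEin hu w hβ

/-- the minimising segment between two points in the chart centred at the midpoint -/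
theorem exists_seg (hcov : IsLC cov) (hE : Module.finrank ℝ E = 4) (F : Facts e)
    (hEin : (S4.geo2Of hcov hE).Einstein 3) {x y : M} (hxy : x ≠ y) :
    ∃ (z : M) (v : Eu E) (R : ℝ), 2 * R = dist x y ∧ ef e z ((-R) • v) = x ∧ ef e z (R • v) = y ∧
      Seg (pb e z) (dom e z) (ef e z) v R := by
  obtain ⟨z, w, hw, hx, hy, hdom⟩ := H580.midpoint F x y
  have hpos : 0 < dist x y := dist_pos.2 hxy
  set R : ℝ := ‖w‖ with hR
  have hR0 : 0 < R := by linarith
  set v : Eu E := (fr z).symm ((R⁻¹ • w : TangentSpace 𝓘(ℝ, E) z) : E) with hv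
  have hfv : (fr z v : E) = (R⁻¹ • w : TangentSpace 𝓘(ℝ, E) z) :=
    ContinuousLinearEquiv.apply_symm_apply (fr z) _
  have hfr : ∀ t : ℝ, (fr z (t • v) : E) = ((t / R) • w : TangentSpace 𝓘(ℝ, E) z) := by
    intro t
    rw [map_smul, hfv]
    show (t • (R⁻¹ • w) : TangentSpace 𝓘(ℝ, E) z) = _
    rw [smul_smul, div_eq_mul_inv]
  have hnv : ‖v‖ = 1 := by
    rw [← nm_fr z v, hfv]
    show ‖(R⁻¹ • w : TangentSpace 𝓘(ℝ, E) z)‖ = 1
    rw [norm_smul, norm_inv, Real.norm_eq_abs, abs_of_pos hR0]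
    exact inv_mul_cancel₀ hR0.ne'
  have e1 : ef e z ((-R) • v) = x := by
    show e z (fr z ((-R) • v) : E) = x
    rw [hfr, neg_div, div_self hR0.ne', neg_smul, one_smul]
    exact hx
  have e2 : ef e z (R • v) = y := by
    show e z (fr z (R • v) : E) = y
    rw [hfr, div_self hR0.ne', one_smul]
    exact hy
  refine ⟨z, v, R, hw, e1, e2, locGeo hcov hE F hEin z, hR0, ?_, ?_, ?_⟩
  · intro t ht
    show (fr z (t • v) : E) ∈ injDomain e z
    rw [hfr]
    refine hdom _ ?_
    rw [abs_div, abs_of_pos hR0]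
    exact (div_le_one hR0).2 ht
  · intro t _
    have h1 := qf_eq e z (t • v) v
    have h2 := H580.speed_ray F z (fr z v : E) t
    rw [map_smul, h2, nm_fr, hnv] at h1
    show qf (pb e z) (t • v, v) = 1
    rw [h1]; norm_num
  · rw [e1, e2, hw]

/-- Bonnet-Myers -/
theorem dist_le_pi (hcov : IsLC cov) (hE : Module.finrank ℝ E = 4) (F : Facts e)
    (hEin : (S4.geo2Of hcov hE).Einstein 3) (x y : M) : dist x y ≤ Real.pi := by
  rcases eq_or_ne x y with rfl | hxy
  · rw [dist_self]; exact Real.pi_pos.le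
  · obtain ⟨z, v, R, hR, -, -, hs⟩ := exists_seg hcov hE F hEin hxy
    rw [← hR]
    refine hs.length_le ?_
    rw [finrank_euclideanSpace, Fintype.card_fin, hE]

/-- squared norm of the gradient in the chart -/
theorem grad_coord (hcov : IsLC cov) (hE : Module.finrank ℝ E = 4) (F : Facts e)
    {z : M} {ξ : Eu E} (hξ : ξ ∈ dom e z) (f : SF E M)
    {β : Fin 4 → Eu E} (hβ : ∀ i j, pb e z ξ (β i) (β j) = if i = j then 1 else 0) :
    (S4.geo2Of hcov hE).ev (ef e z ξ)
        ((S4.geo2Of hcov hE).g ((S4.geo2Of hcov hE).grad f) ((S4.geo2Of hcov hE).grad f)) =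
      ∑ i, fderiv ℝ (fun η : Eu E => f (ef e z η)) ξ (β i) ^ 2 := by
  obtain ⟨C, hC⟩ := exists_coord F hξ
  have hCξ := hC.self_of_nhds
  rw [S4.grad_sq f (on_coord hcov hE hC hβ)]
  refine Finset.sum_congr rfl fun i _ => ?_
  rw [D_coord hcov hE F z (C (β i)) f (hCξ _)]

/-- **Two-point maximum principle** on a closed Einstein four-manifold (`Ric = 3`). Let `f`, `g` be
smooth functions, `x ≠ y` points at distance less than `π` and `Λ` a `C²` function near
`(f x, g y, d(x,y))` which vanishes there and for which `Λ (f p, g q, ρ) ≤ 0` whenever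
`ρ ≥ d(p,q)` and `(p, q, ρ)` is close to `(x, y, d(x,y))`. -/
theorem two_point (hcov : IsLC cov) (hE : Module.finrank ℝ E = 4) (F : Facts e)
    (hEin : (S4.geo2Of hcov hE).Einstein 3) (f g : SF E M) {x y : M} (hxy : x ≠ y)
    (hpi : dist x y < Real.pi) {Λ : ℝ × ℝ × ℝ → ℝ}
    (hΛ : ContDiffAt ℝ 2 Λ (f x, g y, dist x y)) (h0 : Λ (f x, g y, dist x y) = 0)
    (hle : ∀ᶠ q in 𝓝 ((x, y, dist x y) : M × M × ℝ),
      dist q.1 q.2.1 ≤ q.2.2 → Λ (f q.1, g q.2.1, q.2.2) ≤ 0) :
    let DL := fderiv ℝ Λ (f x, g y, dist x y)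
    let HL := fderiv ℝ (fderiv ℝ Λ) (f x, g y, dist x y)
    ∃ a b : Fin 4 → ℝ,
      (∑ i, a i ^ 2 = (S4.geo2Of hcov hE).ev x
        ((S4.geo2Of hcov hE).g ((S4.geo2Of hcov hE).grad f) ((S4.geo2Of hcov hE).grad f))) ∧
      (∑ i, b i ^ 2 = (S4.geo2Of hcov hE).ev y
        ((S4.geo2Of hcov hE).g ((S4.geo2Of hcov hE).grad g) ((S4.geo2Of hcov hE).grad g))) ∧
      (∀ i, DL (a i, 0, 0) = if i = 0 then DL (0, 0, 1) else 0) ∧
      (∀ i, DL (0, b i, 0) = if i = 0 then - DL (0, 0, 1) else 0) ∧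
      ∀ l m l0 m0 : ℝ, l0 ^ 2 = l ^ 2 → m0 ^ 2 = m ^ 2 →
        HL (l0 * a 0, m0 * b 0, m0 - l0) (l0 * a 0, m0 * b 0, m0 - l0) +
          (∑ i : Fin 3, HL (l * a i.succ, m * b i.succ, 0) (l * a i.succ, m * b i.succ, 0)) +
          DL (l ^ 2 * (S4.geo2Of hcov hE).ev x ((S4.geo2Of hcov hE).lap f),
            m ^ 2 * (S4.geo2Of hcov hE).ev y ((S4.geo2Of hcov hE).lap g),
            3 * (((l ^ 2 + m ^ 2) * Real.cos (dist x y) - 2 * l * m) / Real.sin (dist x y))) ≤
              0 := by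
  obtain ⟨z, v, R, hR, hx, hy, hs⟩ := exists_seg hcov hE F hEin hxy
  have hdim : Module.finrank ℝ (Eu E) = 4 := by
    rw [finrank_euclideanSpace, Fintype.card_fin, hE]
  obtain ⟨β, hβ⟩ := hs.exists_frame hdim
  have hRp := hs.pos
  have hRR : 2 * R < Real.pi := by rw [hR]; exact hpi
  have hcf := fun_smooth F.isExp z f
  have hcg := fun_smooth F.isExp z g
  have hce : Continuous (ef e z) := area_continuous_ef F.isExp z
  have ht : Touch (pb e z) (ef e z) v R (fun η : Eu E => f (ef e z η))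
      (fun η : Eu E => g (ef e z η)) Λ := by
    refine ⟨(hcf.of_le (by norm_cast)).contDiffAt, (hcg.of_le (by norm_cast)).contDiffAt,
      ?_, ?_, ?_⟩
    · simp only [hx, hy, hR]; exact hΛ
    · simp only [hx, hy, hR]; exact h0
    · have h1 : Tendsto (fun q : Eu E × Eu E × ℝ => ((ef e z q.1, ef e z q.2.1, q.2.2) : M × M × ℝ))
          (𝓝 ((-R) • v, R • v, 2 * R)) (𝓝 (x, y, dist x y)) := by
        have h2 : Continuous fun q : Eu E × Eu E × ℝ =>
            ((ef e z q.1, ef e z q.2.1, q.2.2) : M × M × ℝ) :=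
          (hce.comp continuous_fst).prodMk
            ((hce.comp (continuous_fst.comp continuous_snd)).prodMk
              (continuous_snd.comp continuous_snd))
        have h3 := h2.tendsto (((-R) • v, R • v, 2 * R) : Eu E × Eu E × ℝ)
        simp only [hx, hy, hR] at h3
        rw [hR]
        exact h3
      exact h1.eventually hle
  have hmain := hs.tpmp hβ hRR ht
  have m1 : (-R) • v ∈ dom e z := hs.mem (-R) (by rw [abs_neg, abs_of_pos hRp])
  have m2 : R • v ∈ dom e z := hs.mem R (by rw [abs_of_pos hRp])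
  have o1 := hβ.on (-R) (by rw [abs_neg, abs_of_pos hRp])
  have o2 := hβ.on R (by rw [abs_of_pos hRp])
  have g1 := grad_coord hcov hE F m1 f o1
  have g2 := grad_coord hcov hE F m2 g o2
  have l1 : ∑ i, Hs (pb e z) (fun η : Eu E => f (ef e z η)) ((-R) • v) (β i (-R)) =
      (S4.geo2Of hcov hE).ev (ef e z ((-R) • v)) ((S4.geo2Of hcov hE).lap f) := by
    rw [← lap_coord hcov hE F m1 f o1]
    refine Finset.sum_congr rfl fun i _ => ?_
    rw [Hs, P255.chrisB_apply]
  have l2 : ∑ i, Hs (pb e z) (fun η : Eu E => g (ef e z η)) (R • v) (β i R) =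
      (S4.geo2Of hcov hE).ev (ef e z (R • v)) ((S4.geo2Of hcov hE).lap g) := by
    rw [← lap_coord hcov hE F m2 g o2]
    refine Finset.sum_congr rfl fun i _ => ?_
    rw [Hs, P255.chrisB_apply]
  rw [hx] at g1 l1
  rw [hy] at g2 l2
  rw [l1, l2] at hmain
  simp only [hx, hy, hR] at hmain
  exact ⟨_, _, g1.symm, g2.symm, hmain.1, hmain.2.1, hmain.2.2⟩

end

end Vale.Agent.P211.H695
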